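import Crest.Agent.X212.Cab39.Defs
import Crest.Agent.X212.Orx52.Gen

/-!
# X212 / Cab39 (helper39), part 3: orientations

* `Ind O t σ o` : the form `o` on `Fill t σ` restricts on the exterior to the orientation `O` of `S3`;
* `IdOff.ori` : a local diffeomorphism of fillings (of two different tubes) which is the identity on a
  non-empty open part of the sphere preserves induced orientations;
* `exists_dif_ori`, `exists_dif_neg_ori` : the cable diffeomorphisms with their orientation statement.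
-/

set_option autoImplicit false
set_option linter.unusedSectionVars false
set_option linter.style.haveILetI false

open Set Filter Topology Function TopologicalSpace Metric
open scoped ContDiff Manifold
open Crest.GeometryTopology.DehnSurgery Crest.Agent.X212.Glue52 Crest.Agent.X212.Ext52
open Crest.Agent.R208.F Crest.Agent.X212.Dr59 Crest.Agent.X212.Int54 Crest.Agent.X212.Orx52

noncomputable section

namespace Crest.Agent.X212.Cab39

/-- `o` induces on the exterior the orientation of `O` -/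
def Ind (O : S3 → Ext E3) (t : Tube) (σ : FillingData) (o : Fill t σ → Ext E3) : Prop :=
  SameOn (pm (𝓡 3) (𝓡 3) (t.ie σ) o) (pm (𝓡 3) (𝓡 3) (Subtype.val : t.Ext → S3) O) univ

variable {s : Set S3} {t' t : Tube} {σ' σ : FillingData}

/-- two induced orientations of fillings of one tube agree on the exterior (input of `PosD.ori`) -/
theorem Ind.same {O : S3 → Ext E3} {o : Fill t σ → Ext E3} {o' : Fill t σ' → Ext E3}
    (h : Ind O t σ o) (h' : Ind O t σ' o') :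
    SameOn (pm (𝓡 3) (𝓡 3) (t.ie σ) o) (pm (𝓡 3) (𝓡 3) (t.ie σ') o') univ :=
  same_trans h (same_symm h')

theorem IdOff.ori {g : Fill t' σ' → Fill t σ} (h : IdOff s g)
    (hg : IsLocalDiffeomorph (𝓡 3) (𝓡 3) ∞ g) {x : S3} (hx : sᶜ ∈ 𝓝 x) {O : S3 → Ext E3}
    {o : Fill t σ → Ext E3} {o' : Fill t' σ' → Ext E3} (ho : Ori (𝓡 3) o) (ho' : Ori (𝓡 3) o')
    (hi : Ind O t σ o) (hi' : Ind O t' σ' o') : SameOn (pm (𝓡 3) (𝓡 3) g o) o' univ := by
  obtain ⟨h', h0, -⟩ := h x (mem_of_mem_nhds hx)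
  have hp := ori_pm ho hg
  refine same_of_pt (fun y _ => ⟨hp.sm y, hp.ne y⟩) (fun y _ => ⟨ho'.sm y, ho'.ne y⟩)
    isPreconnected_univ (mem_univ (t'.ie σ' ⟨x, h'⟩)) ?_
  let ι : t'.Ext → t.Ext := fun u => ex id ⟨x, h0⟩ u.1
  have nb : ∀ᶠ u : t'.Ext in 𝓝 ⟨x, h'⟩, u.1 ∉ s :=
    continuous_subtype_val.continuousAt.eventually (p := fun y => y ∉ s) hx
  have e1 : g ∘ t'.ie σ' =ᶠ[𝓝 ⟨x, h'⟩] t.ie σ ∘ ι := nb.mono fun u hu => by
    obtain ⟨_, h2, e⟩ := h u hu
    exact e.trans (congrArg _ (ex_mem id _ h2).symm)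
  have e2 : Subtype.val ∘ ι =ᶠ[𝓝 ⟨x, h'⟩] Subtype.val := nb.mono fun u hu => by
    obtain ⟨_, h2, -⟩ := h u hu
    exact congrArg Subtype.val (ex_mem id _ h2)
  have l : IsLocalDiffeomorphAt (𝓡 3) (𝓡 3) ∞ ι ⟨x, h'⟩ := ld_codRestrict (ld_congr (ld_val _ _) e2)
  have d := l.mdifferentiableAt (by simp)
  have l' := (t'.two σ').ld_inl ⟨x, h'⟩
  refine same_of_pm (J := 𝓡 3) (I := 𝓡 3) (f := t'.ie σ') (s := {(⟨x, h'⟩ : t'.Ext)})
    (fun y hy => by rwa [hy]) ?_ _ ⟨_, rfl, rfl⟩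
  refine same_trans (o' := pm (𝓡 3) (𝓡 3) (Subtype.val : t'.Ext → S3) O) ?_
    (same_symm fun y _ => hi' y trivial)
  rintro _ rfl
  rw [pm_comp ((hg _).mdifferentiableAt (by simp)) (l'.mdifferentiableAt (by simp)), pm_congr e1 rfl,
    ← pm_comp (((t.two σ).ld_inl _).mdifferentiableAt (by simp)) d, ← pm_congr e2 rfl,
    ← pm_comp ((ld_val _ _).mdifferentiableAt (by simp)) d]
  exact same_pm hi (f := ι) (s := {(⟨x, h'⟩ : t'.Ext)}) (fun y hy => by rwa [hy]) (mapsTo_univ _ _) _ rfl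

theorem compl_otube_mem (t : Tube) (r : ℝ) : (otube t r)ᶜ ∈ 𝓝 (t.τ (1, (|r| + 1 : ℝ))) := by
  refine mem_of_superset ((isClosed_ctube t r).isOpen_compl.mem_nhds fun h => ?_)
    (compl_subset_compl.2 (otube_subset t r))
  have h1 := τ_mem_ctube.1 h
  rw [Complex.norm_real, Real.norm_of_nonneg (by positivity)] at h1
  linarith [le_abs_self r]

/-- `g` preserves the orientations induced by any orientation of the sphere -/
def PosI {t' t : Tube} {σ' σ : FillingData} (g : Fill t' σ' → Fill t σ) : Prop :=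
  ∀ (O : S3 → Ext E3) (o : Fill t σ → Ext E3) (o' : Fill t' σ' → Ext E3), Ori (𝓡 3) o → Ori (𝓡 3) o' →
    Ind O t σ o → Ind O t' σ' o' → SameOn (pm (𝓡 3) (𝓡 3) g o) o' univ

theorem DifOff.ori {u : Tube} {r : ℝ} (h : DifOff (otube u r) t' σ' t σ) :
    ∃ g : Fill t' σ' ≃ₘ^∞⟮𝓡 3, 𝓡 3⟯ Fill t σ, IdOff (otube u r) g ∧ PosI g :=
  let ⟨g, hg⟩ := h
  ⟨g, hg, fun _ _ _ ho ho' => hg.ori g.isLocalDiffeomorph (compl_otube_mem u r) ho ho'⟩

/-- CABLE: `C_{2,1}(1) = K(1/4)`, oriented -/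
theorem exists_dif_ori (k : KD) {s1 s4 : FillingData} (h1 : s1.p = 1 ∧ s1.q = 1)
    (h4 : s4.p = 1 ∧ s4.q = 4) :
    ∃ g : Fill (cable k).toTube s1 ≃ₘ^∞⟮𝓡 3, 𝓡 3⟯ Fill k.toTube s4,
      IdOff (otube k.toTube 3) g ∧ PosI g :=
  (exists_dif k.toTube (.inl rfl) (.inl rfl) h1 (by simpa using h4)).ori

/-- CABLE: `C_{2,-1}(-1) = K(-1/4)`, oriented -/
theorem exists_dif_neg_ori (k : KD) {s1 s4 : FillingData} (h1 : s1.p = -1 ∧ s1.q = 1)
    (h4 : s4.p = -1 ∧ s4.q = 4) :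
    ∃ g : Fill (flip (cable (flip k))).toTube s1 ≃ₘ^∞⟮𝓡 3, 𝓡 3⟯ Fill k.toTube s4,
      IdOff (otube k.toTube 3) g ∧ PosI g :=
  (exists_dif_neg k.toTube (.inr rfl) (.inr rfl) (by simpa using h1) (by simpa using h4)).ori

end Crest.Agent.X212.Cab39
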