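import Crest.Agent.X212.Dr59.Sph
import Crest.Agent.X212.Ext52.Defs

/-!
# X212 / Cab39 / B2 (helper39): the second Betti number of a Dehn filling is at most one

* `ex_ext` : a closed two-form on the exterior which is exact near the knot is exact;
* `bd_fill : Bd (𝓡 3) 2 univ 1` on `Fill t σ`;  `exists_mul` : closed two-forms are multiples of a
  non-exact one up to exact forms.
-/

set_option autoImplicit false
set_option linter.unusedSectionVars false

open Set Filter Topology Function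
open scoped ContDiff Manifold
open Crest.GeometryTopology.DehnSurgery Crest.Agent.R208.F Crest.Agent.X212.Glue52
  Crest.Agent.X212.Ext52 Crest.Agent.X212.Dr59

noncomputable section

namespace Crest.Agent.X212.Cab39

variable (t : Tube) (σ : FillingData)

theorem ex_ext {c : t.Ext → Ext E3} (hc : Cl (𝓡 3) 2 univ c) (h : Ex (𝓡 3) (range t.τE) c) :
    Ex (𝓡 3) univ c := by
  have hW : IsOpen (range t.τE) := (ld_isOpenEmbedding t.ld_τE t.τE_injective).isOpen_range
  obtain ⟨x, hx⟩ := (oe_st_bij (k := 2) (ld_val t.Ext) Subtype.val_injective isOpen_univ).2 hc.cls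
  obtain ⟨a, ha, rfl⟩ := exists_cls x
  have h1 : Ex (𝓡 3) univ (pm (𝓡 3) (𝓡 3) Subtype.val a - c) := cls_eq.1 hx
  have h2 := ex_oe (ld_val t.Ext) Subtype.val_injective hW (a := a)
    (by simpa using (h1.mono (subset_univ _)).add h)
  have hU := oe_open (ld_val (I := 𝓡 3) t.Ext) Subtype.val_injective isOpen_univ
  obtain ⟨χ, hχ⟩ := exists_cut (I := 𝓡 3) hU t.isOpenEmbedding.isOpen_range
  obtain ⟨b, hb, h3, -⟩ := mv_glue hU t.isOpenEmbedding.isOpen_range hχ ha Cl.zero (by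
    rw [sub_zero]
    refine h2.mono ?_
    rintro _ ⟨⟨y, -, rfl⟩, z, e⟩
    exact ⟨y, ⟨⟨z, t.τ_mem_Ext.1 (e ▸ y.2)⟩, Subtype.ext e⟩, rfl⟩)
  have h4 : Ex (𝓡 3) univ b := hz_sphere (d := 3) (k := 1) (by norm_num) b (hb.mono fun x _ => by
    by_cases hx : x ∈ range t.τ
    exacts [.inr hx, .inl ⟨⟨x, t.mem_Ext_of_not_mem_range hx⟩, trivial, rfl⟩])
  have h5 := ((h4.mono (subset_univ _)).sub h3).pm
    (Mp.of_contMDiff (ld_val t.Ext).contMDiff (mapsTo_image _ univ))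
  simpa using h5.sub h1

theorem range_ie_inter : range (t.ie σ) ∩ range (t.it σ) = t.it σ '' cz := by
  ext p
  constructor
  · rintro ⟨⟨x, rfl⟩, z, e⟩
    exact ⟨z, ((t.ie_eq_it σ).1 e.symm).1, e⟩
  · rintro ⟨z, hz, rfl⟩
    exact ⟨⟨_, t.ie_τE σ ⟨z, hz⟩⟩, z, rfl⟩

variable {E : Type*} [NormedAddCommGroup E] [NormedSpace ℝ E] [FiniteDimensional ℝ E]
  {H : Type*} [TopologicalSpace H] {I : ModelWithCorners ℝ E H} [I.Boundaryless]
  {M : Type*} [TopologicalSpace M] [ChartedSpace H M] [IsManifold I ∞ M]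

theorem bd_two [T2Space M] [SigmaCompactSpace M] {U : Set M} (hU : IsOpen U) {j : Circle × ℂ → M}
    (ld : IsLocalDiffeomorph Ext52.IT I ∞ j) (hi : Injective j) (e : U ∪ range j = univ)
    (e' : U ∩ range j = j '' cz) (h : ∀ a, Cl I 2 univ a → Ex I (range j) a → Ex I U a) :
    Bd I 2 (univ : Set M) 1 := by
  have hV := (ld_isOpenEmbedding ld hi).isOpen_range
  obtain ⟨χ, hχ⟩ := exists_cut (I := I) hU hV
  have mp : Mp Ext52.IT I cz (U ∩ range j) j :=
    .of_contMDiff ld.contMDiff fun z hz => e'.ge ⟨z, hz, rfl⟩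
  have bij : Bijective (mp.st 1) := by
    have := oe_st_bij (k := 1) ld hi isOpen_cz
    revert mp
    rw [e']
    exact fun _ => this
  obtain ⟨m, hm⟩ := bij.2 cl_aM.cls
  obtain ⟨l, hl⟩ : ∃ l : HR I 1 (range j), mp.st 1 (res inter_subset_right l) = cl_aL.cls := by
    obtain ⟨l, hl⟩ := (oe_st_bij (k := 1) ld hi isOpen_univ).2 cl_aL.cls
    obtain ⟨a, ha, rfl⟩ := exists_cls l
    exact ⟨(ha.mono image_univ.ge).cls, cls_eq.2 ((cls_eq.1 hl).mono (subset_univ _))⟩
  rw [← e] at h ⊢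
  refine bd_of_span (ι := Unit) (fun _ => hχ.dl 1 m) fun x => ?_
  obtain ⟨a, ha, rfl⟩ := exists_cls x
  have h2 : Ex I (range j) a := by
    rw [← image_univ]
    exact (hz_oe ld hi isOpen_univ).2 hz_st a (ha.mono fun _ ⟨z, _, e⟩ => .inr ⟨z, e⟩)
  obtain ⟨y, hy⟩ := mv_ker hU hV hχ (x := ha.cls) (cls_eq_zero.2 (h a ha h2)) (cls_eq_zero.2 h2)
  obtain ⟨r, s, hrs⟩ := span_cz (mp.st 1 y)
  have h3 : y = r • res inter_subset_right l + s • m :=
    bij.1 (by rw [map_add, map_smul, map_smul, hl, hm]; exact hrs)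
  rw [← hy, h3, map_add, map_smul, map_smul, dl_res_right hU hV, smul_zero, zero_add]
  exact Submodule.smul_mem _ _ (Submodule.subset_span ⟨(), rfl⟩)

theorem bd_fill : Bd (𝓡 3) 2 (univ : Set (Fill t σ)) 1 := by
  refine bd_two (t.two σ).isOpenEmbedding_inl.isOpen_range (t.two σ).ld_inr (t.two σ).inr_injective
    (eq_univ_of_forall fun p => (t.two σ).ind (Q := fun p => p ∈ range (t.ie σ) ∪ range (t.it σ))
      (fun x => .inl ⟨x, rfl⟩) (fun z => .inr ⟨z, rfl⟩) p) (range_ie_inter t σ) fun a ha h2 => ?_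
  have sm := (t.two σ).ld_inl.contMDiff
  rw [← image_univ]
  refine ex_oe (t.two σ).ld_inl (t.two σ).inl_injective isOpen_univ (ex_ext t
    (ha.pm (.of_contMDiff sm (mapsTo_univ _ _))) (h2.pm (.of_contMDiff sm ?_)))
  rintro _ ⟨z, rfl⟩
  exact ⟨_, (t.ie_τE' σ z).symm⟩

theorem exists_mul {k : ℕ} {U : Set M} (h : Bd I k U 1) {β d : M → Ext E} (hβ : Cl I k U β)
    (h0 : ¬Ex I U β) (hd : Cl I k U d) : ∃ r : ℝ, Ex I U (d - r • β) := by
  obtain ⟨c, hc⟩ := Bd.span (ι := Unit) h (e := fun _ => hβ.cls) (fun c hc _ => by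
    rw [Fintype.sum_unique] at hc
    exact (smul_eq_zero.1 hc).resolve_right fun e => h0 (cls_eq_zero.1 e)) hd.cls
  rw [Fintype.sum_unique, ← cls_smul] at hc
  exact ⟨_, cls_eq.1 hc.symm⟩

end Crest.Agent.X212.Cab39
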