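import Crest.Agent.X212.Cab39.Loc

/-!
# X212 / Cab39 (helper39), part 2: the (2,1)-cable as a knot datum; `C_1 = K_{1/4}`

* `cable k : KD`, tube `k.τ ∘ cT`, angle `thC k` (`= dir ∘ ff` in the tube of `k`, `θ²` outside);
* `flip k : KD` (longitude reversed), `flipRep` : `Fill (flip k) (p, q) ≃ Fill k (p, -q)`;
* `dif k : Fill (cable k) σ1 ≃ₘ Fill k σ4`, the identity off `τ (‖z‖ < 3)` (`dif_ie`);
* `exists_dif` : the same for all filling data of slopes `1/1`, `1/4`; `exists_dif_neg` : slopes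
  `-1/1`, `-1/4` for the (2,-1)-cable `flip (cable (flip k))`.
-/

set_option autoImplicit false
set_option linter.unusedSectionVars false
set_option linter.style.haveILetI false

open Set Filter Topology Function TopologicalSpace Metric
open scoped ContDiff Manifold
open Crest.GeometryTopology.DehnSurgery Crest.Agent.X212.Glue52 Crest.Agent.X212.Ext52

noncomputable section

namespace Crest.Agent.X212.Cab39

/-! ### functions on the exterior read on the sphere -/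

open Classical in
/-- extension by a junk value of a function on an open subset -/
def ex {U : Opens S3} {Z : Type*} (g : U → Z) (z : Z) (x : S3) : Z := if h : x ∈ U then g ⟨x, h⟩ else z

theorem ex_mem {U : Opens S3} {Z : Type*} (g : U → Z) (z : Z) {x : S3} (h : x ∈ U) :
    ex g z x = g ⟨x, h⟩ := dif_pos h

theorem ex_val {U : Opens S3} {Z : Type*} (g : U → Z) (z : Z) : ex g z ∘ Subtype.val = g :=
  funext fun x => ex_mem g z x.2

section

variable {E : Type*} [NormedAddCommGroup E] [NormedSpace ℝ E] {H : Type*} [TopologicalSpace H]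
  {J : ModelWithCorners ℝ E H} {Z : Type*} [TopologicalSpace Z] [ChartedSpace H Z] {U : Opens S3}
  {g : U → Z} {z : Z} {x : S3}

theorem contMDiffAt_ex (hx : x ∈ U) (h : ContMDiffAt (𝓡 3) J ∞ g ⟨x, hx⟩) :
    ContMDiffAt (𝓡 3) J ∞ (ex g z) x :=
  contMDiffAt_of_comp (ld_val U ⟨x, hx⟩) (by rwa [ex_val])

theorem ld_ex (hx : x ∈ U) (h : IsLocalDiffeomorphAt (𝓡 3) J ∞ g ⟨x, hx⟩) :
    IsLocalDiffeomorphAt (𝓡 3) J ∞ (ex g z) x :=
  ld_of_comp (ld_val U ⟨x, hx⟩) (by rwa [ex_val])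

end

/-- the open tube of radius `r` -/
def otube (t : Tube) (r : ℝ) : Set S3 := t.τ '' {v | ‖v.2‖ < r}

/-- the closed tube of radius `r` -/
def ctube (t : Tube) (r : ℝ) : Set S3 := t.τ '' {v | ‖v.2‖ ≤ r}

theorem isOpen_otube (t : Tube) (r : ℝ) : IsOpen (otube t r) :=
  t.isOpenEmbedding.isOpenMap _ (isOpen_lt continuous_snd.norm continuous_const)

theorem isClosed_ctube (t : Tube) (r : ℝ) : IsClosed (ctube t r) := by
  have := (t.isCompact_tube r).isClosed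
  rwa [← Tube.tube_eq] at this

theorem otube_subset (t : Tube) (r : ℝ) : otube t r ⊆ ctube t r :=
  image_mono fun _ (h : _ < r) => h.le

theorem τ_mem_otube {t : Tube} {r : ℝ} {v : Circle × ℂ} : t.τ v ∈ otube t r ↔ ‖v.2‖ < r :=
  t.inj.mem_set_image

theorem τ_mem_ctube {t : Tube} {r : ℝ} {v : Circle × ℂ} : t.τ v ∈ ctube t r ↔ ‖v.2‖ ≤ r :=
  t.inj.mem_set_image

theorem mem_Ext_of_otube {t : Tube} {r : ℝ} (hr : 0 < r) {x : S3} (h : x ∉ otube t r) : x ∈ t.Ext := by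
  by_cases h' : x ∈ range t.τ
  · obtain ⟨v, rfl⟩ := h'
    refine t.τ_mem_Ext.2 fun e => h (τ_mem_otube.2 ?_)
    rwa [e, norm_zero]
  · exact t.mem_Ext_of_not_mem_range h'

theorem extend_far {t : Tube} {Z : Type*} {F : Circle × ℂ → Z} {G : S3 → Z} {r : ℝ}
    (h : ∀ v, r ≤ ‖v.2‖ → F v = G (t.τ v)) {x : S3} (hx : x ∉ otube t r) : extend t.τ F G x = G x := by
  by_cases h' : ∃ v, t.τ v = x
  · obtain ⟨v, rfl⟩ := h'
    rw [t.inj.extend_apply, h v (not_lt.1 fun hv => hx (τ_mem_otube.2 hv))]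
  · exact extend_apply' _ _ _ h'

theorem extend_ev {t : Tube} {Z : Type*} {F : Circle × ℂ → Z} {G : S3 → Z} {r : ℝ}
    (h : ∀ v, r ≤ ‖v.2‖ → F v = G (t.τ v)) {x : S3} (hx : x ∉ range t.τ) :
    extend t.τ F G =ᶠ[𝓝 x] G := by
  filter_upwards [(isClosed_ctube t r).isOpen_compl.mem_nhds fun h => hx (image_subset_range _ _ h)]
    with y hy
  exact extend_far h fun h' => hy (otube_subset t r h')

/-! ### the cable -/

/-- the tube of the (2,1)-cable -/
def cabT (t : Tube) : Tube := ⟨t.τ ∘ cT, ld_comp t.ld ld_cT, t.inj.comp cT_injective⟩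

theorem cabT_τ (t : Tube) (a : Circle × ℂ) : (cabT t).τ a = t.τ (cT a) := rfl

theorem τ_mem_cab {t : Tube} {v : Circle × ℂ} : t.τ v ∈ (cabT t).Ext ↔ ff v ≠ 0 := by
  refine ⟨fun h e => ?_, fun h => ?_⟩
  · obtain ⟨x, rfl⟩ := exists_cT_core e
    exact (cabT t).τ_mem_Ext.1 h rfl
  · by_cases h' : t.τ v ∈ range (cabT t).τ
    · obtain ⟨a, e⟩ := h'
      obtain rfl : cT a = v := t.inj e
      exact (cabT t).τ_mem_Ext.2 (mt ff_cT_eq_zero.2 h)
    · exact (cabT t).mem_Ext_of_not_mem_range h'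

theorem mem_cab_of_otube {t : Tube} {r : ℝ} (hr : 2 ≤ r) {x : S3} (h : x ∉ otube t r) :
    x ∈ (cabT t).Ext := by
  refine (cabT t).mem_Ext_of_not_mem_range ?_
  rintro ⟨a, rfl⟩
  exact h (τ_mem_otube.2 ((norm_cT_lt a).trans_le hr))

theorem not_mem_otube {t : Tube} (r : ℝ) {x : S3} (h : x ∉ range t.τ) : x ∉ otube t r :=
  fun h' => h (image_subset_range _ _ h')

variable (k : KD)

/-- the angle of `k` on the sphere -/
def thK : S3 → Circle := ex k.θ 1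

theorem thK_τ {v : Circle × ℂ} (h : v.2 ≠ 0) : thK k (k.τ v) = dir v.2 :=
  (ex_mem _ _ (k.τ_mem_Ext.2 h)).trans (k.θτ ⟨v, h⟩)

theorem contMDiffAt_thK {x : S3} (h : x ∈ k.Ext) : ContMDiffAt (𝓡 3) (𝓡 1) ∞ (thK k) x :=
  contMDiffAt_ex h (k.smθ _)

/-- the angle of the cable on the sphere -/
def thC : S3 → Circle := extend k.τ (fun v => dir (ff v)) fun x => thK k x ^ 2

theorem thC_τ (v : Circle × ℂ) : thC k (k.τ v) = dir (ff v) := k.inj.extend_apply _ _ _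

theorem thC_match (v : Circle × ℂ) (h : 3 ≤ ‖v.2‖) : dir (ff v) = thK k (k.τ v) ^ 2 := by
  rw [dir_ff_far h, thK_τ k (norm_pos_iff.1 (by linarith))]

theorem thC_far {x : S3} (h : x ∉ otube k.toTube 3) : thC k x = thK k x ^ 2 :=
  extend_far (thC_match k) h

theorem contMDiffAt_thC {x : S3} (h : x ∈ (cabT k.toTube).Ext) :
    ContMDiffAt (𝓡 3) (𝓡 1) ∞ (thC k) x := by
  by_cases h' : x ∈ range k.τ
  · obtain ⟨v, rfl⟩ := h'
    exact k.patch_in (cdir (contMDiff_ff v) (τ_mem_cab.1 h))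
  · exact ((contMDiffAt_thK k (k.mem_Ext_of_not_mem_range h')).pow 2).congr_of_eventuallyEq
      (extend_ev (thC_match k) h')

/-- THE (2,1)-CABLE -/
def cable : KD where
  toTube := cabT k.toTube
  θ x := thC k x
  smθ x := (contMDiffAt_thC k x.2).comp x contMDiff_subtype_val.contMDiffAt
  θτ a := (thC_τ k _).trans (dir_ff_cT a.2)

theorem cable_toTube : (cable k).toTube = cabT k.toTube := rfl

theorem cable_θ (x : (cable k).Ext) : (cable k).θ x = thC k x := rfl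

theorem cable_core (x : Circle) : (cable k).τ (x, 0) = k.τ (x ^ 2, (x : ℂ)) := congrArg k.τ (cT_core x)

/-! ### `C_1 = K_{1/4}` -/

/-- slope `1/1` -/
def σ1 : FillingData := ⟨1, 1, 1, 0, by norm_num⟩

/-- slope `1/4` -/
def σ4 : FillingData := ⟨1, 4, 1, 3, by norm_num⟩

/-- conjugation -/
def cj : (Circle × ℂ) ≃ₘ^∞⟮IT, IT⟯ (Circle × ℂ) := coreD 1 (-1) 0 (.inl rfl) (.inr rfl)

/-- the reparametrisation of the core -/
def cD : (Circle × ℂ) ≃ₘ^∞⟮IT, IT⟯ (Circle × ℂ) := coreD 1 (-1) 3 (.inl rfl) (.inr rfl)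

variable (t : Tube)

/-- the map on the sphere minus the cable -/
def g1 : S3 → Fill t σ4 :=
  extend t.τ (fun v => t.it σ4 (cj (tP 1 v))) (ex (t.ie σ4) (t.it σ4 (1, 0)))

/-- the map on the filling torus -/
def g2 (a : Circle × ℂ) : Fill t σ4 := t.it σ4 (cj (cT (cD a)))

theorem g1_τ (v : Circle × ℂ) : g1 t (t.τ v) = t.it σ4 (cj (tP 1 v)) := t.inj.extend_apply _ _ _

theorem g1_match (v : Circle × ℂ) (h : 3 ≤ ‖v.2‖) :
    t.it σ4 (cj (tP 1 v)) = ex (t.ie σ4) (t.it σ4 (1, 0)) (t.τ v) := by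
  have h0 : v.2 ≠ 0 := norm_pos_iff.1 (by linarith)
  rw [ex_mem _ _ (t.τ_mem_Ext.2 h0), eq_comm, t.ie_eq_it, tP_far 1 h]
  refine ⟨mon_ne _ _ _ _ (mon_ne _ _ _ _ h0), congrArg t.τ ?_⟩
  show mon 4 3 1 1 (mon 0 1 (-1) 0 _) = v
  rw [mon_mon _ _ _ _ _ _ _ _ (mon_ne _ _ _ _ h0), mon_mon _ _ _ _ _ _ _ _ h0]
  exact mon_id v

theorem g1_far {x : S3} (h : x ∉ otube t 3) :
    g1 t x = t.ie σ4 ⟨x, mem_Ext_of_otube three_pos h⟩ :=
  (extend_far (g1_match t) h).trans (ex_mem _ _ _)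

theorem ld_g1 {x : S3} (h : x ∈ (cabT t).Ext) : IsLocalDiffeomorphAt (𝓡 3) (𝓡 3) ∞ (g1 t) x := by
  by_cases h' : x ∈ range t.τ
  · obtain ⟨v, rfl⟩ := h'
    refine ld_of_comp (t.ld v) ?_
    rw [g1, extend_comp t.inj]
    exact (ld_tP 1 (τ_mem_cab.1 h)).comp _ _ (ld_comp (t.two σ4).ld_inr cj.isLocalDiffeomorph _)
  · exact ld_congr (ld_ex (t.mem_Ext_of_not_mem_range h') ((t.two σ4).ld_inl _))
      (extend_ev (g1_match t) h')

theorem g1_ne {x : S3} (h : x ∉ range t.τ) (a : Circle × ℂ) : g1 t x ≠ t.it σ4 a := by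
  rw [g1_far t (not_mem_otube 3 h)]
  exact fun e => h ⟨_, ((t.ie_eq_it σ4).1 e).2⟩

theorem g1_inj {x y : S3} (hx : x ∈ (cabT t).Ext) (hy : y ∈ (cabT t).Ext) (e : g1 t x = g1 t y) :
    x = y := by
  by_cases h : x ∈ range t.τ <;> by_cases h' : y ∈ range t.τ
  · obtain ⟨v, rfl⟩ := h
    obtain ⟨w, rfl⟩ := h'
    rw [g1_τ, g1_τ] at e
    rw [← tP_neg 1 (τ_mem_cab.1 hx), cj.injective ((t.two σ4).inr_injective e),
      tP_neg 1 (τ_mem_cab.1 hy)]
  · obtain ⟨v, rfl⟩ := h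
    exact (g1_ne t h' _ (e.symm.trans (g1_τ t v))).elim
  · obtain ⟨v, rfl⟩ := h'
    exact (g1_ne t h _ (e.trans (g1_τ t v))).elim
  · rw [g1_far t (not_mem_otube 3 h), g1_far t (not_mem_otube 3 h')] at e
    exact congrArg Subtype.val ((t.two σ4).inl_injective e)

theorem g1_g2 {a : Circle × ℂ} (h : a.2 ≠ 0) : g1 t (t.τ (cT (mon 1 0 1 1 a))) = g2 t a := by
  rw [g1_τ, tP_cT 1 (mon_ne _ _ _ _ h), mon_mon _ _ _ _ _ _ _ _ h]
  rfl

theorem g_surj (y : Fill t σ4) : (∃ x : (cabT t).Ext, g1 t x = y) ∨ ∃ a, g2 t a = y := by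
  have key : ∀ w, (∃ x : (cabT t).Ext, g1 t x = t.it σ4 w) ∨ ∃ a, g2 t a = t.it σ4 w := fun w => by
    obtain ⟨v, rfl⟩ := cj.surjective w
    by_cases h : ff v = 0
    · obtain ⟨x, rfl⟩ := exists_cT_core h
      obtain ⟨a, e⟩ := cD.surjective (x, 0)
      exact .inr ⟨a, by rw [g2, show cD a = (x, 0) from e]; rfl⟩
    · exact .inl ⟨⟨t.τ (tP (-1) v), τ_mem_cab.2 ((ff_tP _).2 h)⟩, by rw [g1_τ, tP_neg' 1 h]; rfl⟩
  refine (t.two σ4).ind (fun x => ?_) key y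
  by_cases h : x.1 ∈ range t.τ
  · obtain ⟨v, e⟩ := h
    have h0 : v.2 ≠ 0 := t.τ_mem_Ext.1 (e ▸ x.2)
    rw [show (t.two σ4).inl x = _ from
      (congrArg (t.ie σ4) (Subtype.ext e.symm)).trans (t.ie_τE' σ4 ⟨v, h0⟩)]
    exact key _
  · exact .inl ⟨⟨x.1, mem_cab_of_otube (r := 3) (by norm_num) (not_mem_otube 3 h)⟩,
      g1_far t (not_mem_otube 3 h)⟩

theorem g_rel (x : (cabT t).Ext) (a : Circle × ℂ) :
    g1 t x = g2 t a ↔ a.2 ≠ 0 ∧ t.τ (cT (mon 1 0 1 1 a)) = x := by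
  refine ⟨fun e => ?_, fun h => by rw [← h.2, g1_g2 t h.1]⟩
  have h : a.2 ≠ 0 := by
    obtain ⟨v, hv⟩ : x.1 ∈ range t.τ := not_not.1 fun h => g1_ne t h _ e
    rw [← hv, g1_τ] at e
    have h1 := (ff_tP 1).2 (τ_mem_cab.1 (hv ▸ x.2))
    rw [cj.injective ((t.two σ4).inr_injective e), Ne, ff_cT_eq_zero] at h1
    exact mt (mon_eq_zero _ _ _ _ a).2 h1
  exact ⟨h, g1_inj t (τ_mem_cab.2 (mt ff_cT_eq_zero.1 (mon_ne _ _ _ _ h))) x.2
    ((g1_g2 t h).trans e.symm)⟩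

/-- `+1` surgery on the (2,1)-cable is `1/4` surgery on the companion -/
def dif : Fill (cabT t) σ1 ≃ₘ^∞⟮𝓡 3, 𝓡 3⟯ Fill t σ4 :=
  ((cabT t).two σ1).diffeo (fun x => g1 t x) (g2 t) (fun x => ld_restrict (ld_g1 t x.2))
    (ld_comp (t.two σ4).ld_inr (ld_comp cj.isLocalDiffeomorph
      (ld_comp (g := cT) ld_cT cD.isLocalDiffeomorph)))
    (fun x y e => Subtype.ext (g1_inj t x.2 y.2 e))
    ((t.two σ4).inr_injective.comp (cj.injective.comp (cT_injective.comp cD.injective))) (g_surj t)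
    fun x a => (g_rel t x a).trans
      (((cabT t).ie_eq_it σ1).symm.trans ((cabT t).two σ1).inl_eq_inr)

theorem dif_ie' (x : (cabT t).Ext) : dif t ((cabT t).ie σ1 x) = g1 t x := by
  unfold dif
  exact Two.diffeo_inl _ x

theorem dif_it (a : Circle × ℂ) : dif t ((cabT t).it σ1 a) = g2 t a := by
  unfold dif
  exact Two.diffeo_inr _ a

/-- `g` is the identity on the part of the sphere outside `s` -/
def IdOff (s : Set S3) {t' t : Tube} {σ' σ : FillingData} (g : Fill t' σ' → Fill t σ) : Prop :=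
  ∀ x ∉ s, ∃ (h' : x ∈ t'.Ext) (h : x ∈ t.Ext), g (t'.ie σ' ⟨x, h'⟩) = t.ie σ ⟨x, h⟩

theorem dif_ie : IdOff (otube t 3) (dif t) := fun x hx =>
  ⟨mem_cab_of_otube (by norm_num) hx, _, (dif_ie' t _).trans (g1_far t hx)⟩

variable {t}

/-- the two fillings are diffeomorphic by a map which is the identity outside `s` -/
def DifOff (s : Set S3) (t' : Tube) (σ' : FillingData) (t : Tube) (σ : FillingData) : Prop :=
  ∃ g : Fill t' σ' ≃ₘ^∞⟮𝓡 3, 𝓡 3⟯ Fill t σ, IdOff s g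

section

variable {s : Set S3} {t' t'' : Tube} {σ σ' σ'' : FillingData}

theorem DifOff.trans (h : DifOff s t'' σ'' t' σ') (h' : DifOff s t' σ' t σ) : DifOff s t'' σ'' t σ := by
  obtain ⟨g, hg⟩ := h
  obtain ⟨g', hg'⟩ := h'
  refine ⟨g.trans g', fun x hx => ?_⟩
  obtain ⟨h1, h2, e⟩ := hg x hx
  obtain ⟨h3, h4, e'⟩ := hg' x hx
  exact ⟨h1, h4, (congrArg g' e).trans e'⟩

theorem DifOff.symm (h : DifOff s t' σ' t σ) : DifOff s t σ t' σ' := by
  obtain ⟨g, hg⟩ := h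
  refine ⟨g.symm, fun x hx => ?_⟩
  obtain ⟨h1, h2, e⟩ := hg x hx
  exact ⟨h2, h1, by rw [← e, Diffeomorph.symm_apply_apply]⟩

theorem difOff_rep (R : Tube.Rep t' t σ' σ) (hs : ∀ x ∉ s, x ∈ t.Ext) : DifOff s t' σ' t σ :=
  ⟨R.diffeo, fun x hx => ⟨R.ext.ge (hs x hx), hs x hx, R.diffeo_ie _⟩⟩

end

/-- CABLE, any filling data of slopes `1/1` and `1/4` -/
theorem exists_dif (t : Tube) {s1 s4 : FillingData} {ε δ : ℤ} (hε : ε = 1 ∨ ε = -1) (hδ : δ = 1 ∨ δ = -1)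
    (h1 : s1.p = ε ∧ s1.q = ε) (h4 : s4.p = δ ∧ s4.q = 4 * δ) :
    DifOff (otube t 3) (cabT t) s1 t s4 :=
  (difOff_rep ((cabT t).signRep s1 σ1 hε (by simp [σ1, h1]) (by simp [σ1, h1]))
    fun _ => mem_cab_of_otube (by norm_num)).trans <| DifOff.trans ⟨dif t, dif_ie t⟩
      (difOff_rep (t.signRep s4 σ4 hδ (by simp [σ4, h4]) (by simp [σ4, h4, mul_comm]))
        fun _ => mem_Ext_of_otube three_pos).symm

/-! ### reversing the longitude -/

/-- reversal of the longitude -/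
def fl : (Circle × ℂ) ≃ₘ^∞⟮IT, IT⟯ (Circle × ℂ) := coreD (-1) 1 0 (.inr rfl) (.inl rfl)

theorem fl_apply (v : Circle × ℂ) : fl v = (v.1⁻¹, v.2) := by
  simp [fl, coreD_apply, mon, norm_mul_dir]

/-- the tube with the longitude reversed -/
def flipT (t : Tube) : Tube := ⟨t.τ ∘ fl, ld_comp t.ld fl.isLocalDiffeomorph, t.inj.comp fl.injective⟩

theorem flipT_τ (t : Tube) (v : Circle × ℂ) : (flipT t).τ v = t.τ (v.1⁻¹, v.2) :=
  congrArg t.τ (fl_apply v)

theorem image_flipT (t : Tube) (P : ℂ → Prop) : (flipT t).τ '' {v | P v.2} = t.τ '' {v | P v.2} := by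
  ext x
  constructor <;> rintro ⟨v, hv, rfl⟩
  · exact ⟨(v.1⁻¹, v.2), hv, (flipT_τ t v).symm⟩
  · exact ⟨(v.1⁻¹, v.2), hv, by rw [flipT_τ, inv_inv]⟩

theorem otube_flipT (t : Tube) (r : ℝ) : otube (flipT t) r = otube t r := image_flipT t (‖·‖ < r)

theorem flipT_Ext (t : Tube) : (flipT t).Ext = t.Ext := by
  have e : ∀ u : Tube, u.thick.core = u.τ '' {v | v.2 = 0} := fun u =>
    congrArg (u.τ '' ·) (Set.ext fun v => ⟨fun h => h.2, fun h => ⟨trivial, h⟩⟩)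
  exact Opens.ext (congrArg compl ((e _).trans ((image_flipT t (· = 0)).trans (e _).symm)))

/-- the opposite slope -/
def negS (σ : FillingData) : FillingData := ⟨σ.p, -σ.q, -σ.a, σ.b, by linear_combination σ.det⟩

/-- the filling of the reversed tube along the opposite slope -/
def flipRep (t : Tube) (σ : FillingData) : Tube.Rep (flipT t) t (negS σ) σ where
  ψ := fl
  ld := fl.isLocalDiffeomorph
  inj := fl.injective
  zero := mon_eq_zero _ _ _ _
  surj u := fl.surjective _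
  ext := flipT_Ext t
  rel z hz := by
    show t.τ (mon 0 (-1) 1 0 _) = t.τ (mon _ _ _ _ (mon 0 (-1) 1 0 z))
    rw [mon_mon _ _ _ _ _ _ _ _ hz, mon_mon _ _ _ _ _ _ _ _ hz]
    simp [negS]

/-- the knot datum with the longitude reversed -/
def flip (k : KD) : KD where
  toTube := flipT k.toTube
  θ x := thK k x
  smθ x := (contMDiffAt_thK k ((flipT_Ext _).le x.2)).comp x contMDiff_subtype_val.contMDiffAt
  θτ a := by
    show thK k ((flipT k.toTube).τ a) = _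
    rw [flipT_τ, thK_τ k (v := (a.1.1⁻¹, a.1.2)) a.2]

theorem flip_toTube (k : KD) : (flip k).toTube = flipT k.toTube := rfl

/-- CABLE, the other sign: the (2,-1)-cable is `flip (cable (flip k))`, slopes `-1/1` and `-1/4` -/
theorem exists_dif_neg (t : Tube) {s1 s4 : FillingData} {ε δ : ℤ} (hε : ε = 1 ∨ ε = -1)
    (hδ : δ = 1 ∨ δ = -1) (h1 : s1.p = ε ∧ s1.q = -ε) (h4 : s4.p = δ ∧ s4.q = -4 * δ) :
    DifOff (otube t 3) (flipT (cabT (flipT t))) s1 t s4 := by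
  have h := exists_dif (flipT t) (s1 := negS s1) (s4 := negS s4) hε hδ
    (by simp [negS, h1]) (by simp [negS, h4])
  have m : ∀ x ∉ otube t 3, x ∈ (cabT (flipT t)).Ext := fun x hx =>
    mem_cab_of_otube (r := 3) (by norm_num) (by rwa [otube_flipT])
  rw [otube_flipT] at h
  exact (difOff_rep ((flipT (cabT (flipT t))).signRep s1 (negS (negS s1)) (ε := 1) (.inl rfl)
    (by simp [negS]) (by simp [negS])) fun x hx => (flipT_Ext _).ge (m x hx)).trans <|
    (difOff_rep (flipRep _ _) m).trans <| h.trans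
      (difOff_rep (flipRep t s4) fun _ => mem_Ext_of_otube three_pos)

end Crest.Agent.X212.Cab39
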