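import Crest.Agent.X212.Cab39.Zero
import Crest.Agent.X212.Flo26.More

/-!
# X212 / Cab39 / Gen (helper39): the generator of a smooth global flow

* `gen I F`, `Flw.smV`, `Flw.fl_eq`, `Flw.mfderiv_gen` : generic;
* `vf t R` : the generator of `flo t R`;  `dPhi_vf` : `d Phi (vf) = 2 sp · i · Phi`;
  `vf_qa`, `vf_far` : the field in the tube of the companion and outside.
-/

set_option autoImplicit false
set_option linter.unusedSectionVars false

open Set Filter Topology Function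
open scoped ContDiff Manifold
open Crest.GeometryTopology.DehnSurgery Crest.Agent.X212.Glue52 Crest.Agent.X212.Ext52
  Crest.Agent.X212.Flo26

noncomputable section

namespace Crest.Agent.X212.Cab39

section gen

variable {E : Type} [NormedAddCommGroup E] [NormedSpace ℝ E]
  {H : Type*} [TopologicalSpace H] {I : ModelWithCorners ℝ E H}
  {M : Type*} [TopologicalSpace M] [ChartedSpace H M] [IsManifold I ∞ M]
  {E' : Type} [NormedAddCommGroup E'] [NormedSpace ℝ E']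
  {H' : Type*} [TopologicalSpace H'] {J : ModelWithCorners ℝ E' H'}
  {N : Type*} [TopologicalSpace N] [ChartedSpace H' N] [IsManifold J ∞ N] {F : ℝ → M → M}

variable (I) in
/-- the velocity at time zero -/
def gen (F : ℝ → M → M) (x : M) : TangentSpace I x := (mfderiv 𝓘(ℝ, ℝ) I (fun s => F s x) 0 1 : E)

variable (I) in
/-- a smooth global flow -/
structure Flw (F : ℝ → M → M) : Prop where
  sm : ContMDiff (𝓘(ℝ, ℝ).prod I) I ∞ fun p : ℝ × M => F p.1 p.2
  zero : ∀ x, F 0 x = x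
  add : ∀ s s' x, F (s + s') x = F s (F s' x)

theorem Flw.sm_time (h : Flw I F) (x : M) : ContMDiff 𝓘(ℝ, ℝ) I ∞ fun s => F s x :=
  h.sm.comp (contMDiff_id.prodMk contMDiff_const)

theorem Flw.has0 (h : Flw I F) (x : M) :
    HasMFDerivAt 𝓘(ℝ, ℝ) I (fun s => F s x) 0 ((1 : ℝ →L[ℝ] ℝ).smulRight (gen I F x : E)) := by
  refine (((h.sm_time x) 0).mdifferentiableAt (by simp)).hasMFDerivAt.congr_mfderiv ?_
  ext
  exact (one_smul ℝ (gen I F x : E)).symm

theorem Flw.gen_eq (h : Flw I F) (x : M) : (gen I F x : E) =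
    mfderiv (𝓘(ℝ, ℝ).prod I) I (fun p : ℝ × M => F p.1 p.2) (0, x) ((1 : ℝ), (0 : E)) := by
  have h1 := HasMFDerivAt.comp (f := fun s : ℝ => (s, x)) (0 : ℝ)
    ((h.sm (0, x)).mdifferentiableAt (by simp)).hasMFDerivAt
    ((hasMFDerivAt_id (I := 𝓘(ℝ, ℝ)) (0 : ℝ)).prodMk (hasMFDerivAt_const (I' := I) x (0 : ℝ)))
  exact congrArg (fun L : ℝ →L[ℝ] E => L 1) h1.mfderiv

theorem Flw.smV (h : Flw I F) : SmV I (gen I F) := by
  have h1 : SmV (𝓘(ℝ, ℝ).prod I) fun p : ℝ × M => (((1 : ℝ), 0) : TangentSpace (𝓘(ℝ, ℝ).prod I) p) :=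
    SmV.prod (a := fun _ => (1 : ℝ)) (b := fun _ => 0)
      ((smV_model.2 contDiff_const : SmV 𝓘(ℝ, ℝ) fun _ : ℝ => (1 : ℝ)).comp contMDiff_fst)
      ((SmV.zero (I := I)).comp contMDiff_snd)
  refine ((h1.tangent h.sm).comp ((contMDiff_const (c := (0 : ℝ))).prodMk contMDiff_id)).congr
    fun x => ?_
  rw [h.gen_eq]
  exact congrArg (fun y => (⟨y, _⟩ : TangentBundle I M)) (h.zero x).symm

theorem Flw.curve (h : Flw I F) (x : M) (s : ℝ) : HasMFDerivAt 𝓘(ℝ, ℝ) I (fun s => F s x) s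
    ((1 : ℝ →L[ℝ] ℝ).smulRight (gen I F (F s x))) := by
  have h1 : HasMFDerivAt 𝓘(ℝ, ℝ) 𝓘(ℝ, ℝ) (fun t : ℝ => t - s) s (ContinuousLinearMap.id ℝ ℝ) :=
    ((hasFDerivAt_id s).sub_const s).hasMFDerivAt
  have h2 := HasMFDerivAt.comp s (by rw [sub_self]; exact h.has0 (F s x)) h1
  have e : (fun t => F t x) = (fun r => F r (F s x)) ∘ fun t : ℝ => t - s :=
    funext fun t => by simp [← h.add]
  rw [e]
  exact h2

/-- derivative of a map along the generator -/
theorem Flw.mfderiv_gen (h : Flw I F) {f : M → N} {x : M} (hf : MDifferentiableAt I J f x) :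
    (mfderiv I J f x (gen I F x) : E') = mfderiv 𝓘(ℝ, ℝ) J (fun s => f (F s x)) 0 1 := by
  have h1 := (HasMFDerivAt.comp (0 : ℝ) (by rw [h.zero]; exact hf.hasMFDerivAt) (h.has0 x)).mfderiv
  refine Eq.trans ?_ (congrArg (fun L : ℝ →L[ℝ] E' => L 1) h1).symm
  exact (congrArg (fun v : E => (mfderiv I J f x v : E')) (one_smul ℝ (gen I F x : E))).symm

/-- naturality of generators -/
theorem gen_map {G : ℝ → N → N} (h : Flw I F) {f : M → N} {x : M} (hf : MDifferentiableAt I J f x)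
    (e : ∀ᶠ s in 𝓝 0, G s (f x) = f (F s x)) : gen J G (f x) = mfderiv I J f x (gen I F x) := by
  refine Eq.trans ?_ (h.mfderiv_gen hf).symm
  exact congrArg (fun L : ℝ →L[ℝ] E' => L 1) (EventuallyEq.mfderiv_eq e)

theorem gen_of_fix {x : M} (e : ∀ s, F s x = x) : gen I F x = 0 := by
  rw [gen, funext e, mfderiv_const]
  rfl

variable [I.Boundaryless] [T2Space M] [CompleteSpace E]

theorem Flw.fl_eq (h : Flw I F) (s : ℝ) (x : M) :
    (s, x) ∈ dom (gen I F) ∧ Flo26.fl (gen I F) s x = F s x := by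
  simpa only [h.zero] using fl_of_curve h.smV (γ := fun s => F s x) (T := s)
    fun _ _ => .of_forall (h.curve x)

end gen

variable {t : Tube} {R : ℝ}

theorem flw_flo (hR : 3 ≤ R) : Flw (𝓡 3) (flo t R) := ⟨contMDiff_flo hR, flo_zero hR, flo_add hR⟩

theorem flw_fV (R : ℝ) : Flw IT (fV R) := ⟨contMDiff_fV R, fV_zero R, fV_add R⟩

/-- the generator of `flo` -/
def vf (t : Tube) (R : ℝ) : (p : C0 t) → TangentSpace (𝓡 3) p := gen (𝓡 3) (flo t R)

theorem smV_vf (hR : 3 ≤ R) : SmV (𝓡 3) (vf t R) := (flw_flo hR).smV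

theorem fl_vf (hR : 3 ≤ R) (s : ℝ) (p : C0 t) : Flo26.fl (vf t R) s p = flo t R s p :=
  ((flw_flo hR).fl_eq s p).2

theorem vf_far (hR : 3 ≤ R) {p : C0 t} (h : p ∉ Q t (R + 1)) : vf t R p = 0 :=
  gen_of_fix fun s => flo_of_notMem hR s h

theorem vf_qa (hR : 3 ≤ R) {v : Circle × ℂ} (h : ff v ≠ 0) :
    vf t R (qa t v) = mfderiv IT (𝓡 3) (qa t) v (gen IT (fV R) v) :=
  gen_map (flw_fV R) ((ld_qa h).mdifferentiableAt (by simp)) (.of_forall fun s => flo_qa hR s h)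

/-- in the shell the field is the meridional rotation -/
theorem gen_fV_mid {v : Circle × ℂ} (h : 4 ≤ ‖v.2‖) (h' : ‖v.2‖ ≤ R) :
    gen IT (fV R) v = ((0, Complex.I * v.2) : EuclideanSpace ℝ (Fin 1) × ℂ) := by
  have h1 : HasDerivAt (fun s : ℝ => (Circle.exp s : ℂ) * v.2) (Complex.I * v.2) 0 := by
    simpa [Circle.coe_exp] using
      ((((hasDerivAt_id (0 : ℝ)).ofReal_comp).mul_const Complex.I).cexp).mul_const v.2
  have h2 := (hasMFDerivAt_const (I := 𝓘(ℝ, ℝ)) (I' := 𝓡 1) v.1 (0 : ℝ)).prodMk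
    h1.hasFDerivAt.hasMFDerivAt
  have e : (fun s => fV R s v) = fun s : ℝ => (v.1, (Circle.exp s : ℂ) * v.2) :=
    funext fun s => fV_mid s h h'
  rw [gen, e]
  exact (congrArg (fun L : ℝ →L[ℝ] _ => L 1) h2.mfderiv).trans (Prod.ext rfl (one_smul ℝ _))

/-- the logarithmic derivative of `Phi` along `vf` -/
theorem dPhi_vf (k : KD) (hR : 3 ≤ R) (p : C0 k.toTube) :
    mfderiv (𝓡 3) 𝓘(ℝ, ℂ) (fun q => (Phi k q : ℂ)) p (vf _ R p) =
      (2 * sp k.toTube R p * Complex.I * Phi k p : ℂ) := by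
  rw [vf, (flw_flo hR).mfderiv_gen ((ccoe (contMDiff_Phi k p)).mdifferentiableAt (by simp))]
  have h1 : HasDerivAt (fun s : ℝ => (Phi k (flo k.toTube R s p) : ℂ))
      (2 * sp k.toTube R p * Complex.I * Phi k p) 0 := by
    have := ((((hasDerivAt_id (0 : ℝ)).ofReal_comp).mul_const
      (2 * sp k.toTube R p * Complex.I)).cexp).mul_const (Phi k p : ℂ)
    refine (this.congr_deriv (by simp)).congr_of_eventuallyEq (.of_forall fun s => ?_)
    simp only [Phi_flo k hR, Circle.coe_mul, sq, Circle.coe_exp, ← Complex.exp_add, id]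
    congr 2
    push_cast
    ring
  exact (congrArg (fun L : ℝ →L[ℝ] ℂ => L 1) h1.hasFDerivAt.hasMFDerivAt.mfderiv).trans (one_smul ℝ _)

end Crest.Agent.X212.Cab39
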