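import Crest.Agent.X212.Cab39.Zero

/-!
# X212 / Cab39 (helper39), part 5: the levels of `Phi` inside the tube are connected

* `conn_Q` : `Q t r` is connected; `conn_lev` : `Q t r ∩ Phi ⁻¹' {c}` (the cabling annulus) is connected;
* `lev_far` : beyond radius `3` the level is `dir z = ± √c`.
-/

set_option autoImplicit false
set_option linter.unusedSectionVars false
set_option linter.style.haveILetI false

open Set Filter Topology Function TopologicalSpace Metric
open scoped ContDiff Manifold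
open Crest.GeometryTopology.DehnSurgery Crest.Agent.X212.Glue52 Crest.Agent.X212.Ext52

noncomputable section

namespace Crest.Agent.X212.Cab39

/-- a level of a circle map rotated by a flow: connected if the space is connected, the return map
has order two and a fixed point -/
theorem conn_level {X : Type*} [TopologicalSpace X] [PreconnectedSpace X] {F : ℝ → X → X}
    (hF : Continuous fun p : ℝ × X => F p.1 p.2) (h0 : ∀ p, F 0 p = p)
    (ha : ∀ s s' p, F (s + s') p = F s (F s' p)) (h2 : ∀ p, F (2 * Real.pi) p = p) {Φ : X → Circle}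
    (hΦ : Continuous Φ) (hr : ∀ s p, Φ (F s p) = Circle.exp s ^ 2 * Φ p) {c : Circle} {p₀ : X}
    (hp : Φ p₀ = c) (hf : F Real.pi p₀ = p₀) : IsPreconnected (Φ ⁻¹' {c}) := by
  have e2 : ∀ s : ℝ, Circle.exp s ^ 2 = Circle.exp (2 * s) := fun s => by
    rw [sq, ← Circle.exp_add, two_mul]
  have hπ : ∀ p, Φ (F Real.pi p) = Φ p := fun p => by rw [hr, e2, Circle.exp_two_pi, one_mul]
  have hπ2 : ∀ p, F Real.pi (F Real.pi p) = p := fun p => by rw [← ha, ← two_mul, h2]
  -- saturation of an open subset of the level is open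
  have op : ∀ u : Set X, IsOpen u → IsOpen {q | ∃ s, F s q ∈ u ∧ Φ (F s q) = c} := fun u hu => by
    refine isOpen_iff_mem_nhds.2 ?_
    rintro q ⟨s, hs, hc⟩
    let σ : X → ℝ := fun x => s + Complex.arg (Φ q / Φ x : Circle) / 2
    have hσ : ContinuousAt σ q := by
      refine continuousAt_const.add (ContinuousAt.div_const ?_ 2)
      refine ContinuousAt.comp (f := fun x => ((Φ q / Φ x : Circle) : ℂ)) (g := Complex.arg)
        (Complex.continuousAt_arg (by simp)) ?_
      exact (contMDiff_circle_coe.continuous.comp (continuous_const.div' hΦ)).continuousAt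
    have hq : σ q = s := by simp [σ]
    have h1 : ContinuousAt (fun x => F (σ x) x) q :=
      hF.continuousAt.comp (f := fun x => (σ x, x)) (hσ.prodMk continuousAt_id)
    filter_upwards [h1.preimage_mem_nhds (hu.mem_nhds (by rwa [hq]))] with x hx
    refine ⟨σ x, hx, ?_⟩
    rw [← hc, hr, hr, e2, e2, mul_add, Circle.exp_add, mul_div_cancel₀ _ two_ne_zero, Circle.exp_arg,
      mul_assoc, div_mul_cancel]
  have key : ∀ u v : Set X, IsOpen u → IsOpen v → Φ ⁻¹' {c} ⊆ u ∪ v → Φ ⁻¹' {c} ∩ (u ∩ v) = ∅ →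
      p₀ ∈ u → Φ ⁻¹' {c} ⊆ u := by
    intro u v hu hv huv hd h₀ x hx
    have cπ : Continuous (F Real.pi) := hF.comp (continuous_const.prodMk continuous_id)
    have dj : ∀ y, Φ y = c → y ∈ u → y ∈ v → False := fun y h1 h2 h3 =>
      (hd.subset ⟨h1, h2, h3⟩ : y ∈ (∅ : Set X))
    have inv : ∀ n : ℤ, ∀ y, Φ y = c → y ∈ u ∩ F Real.pi ⁻¹' u →
        F (n * Real.pi) y ∈ u ∩ F Real.pi ⁻¹' u := fun n y _ hy => by
      have per : ∀ m : ℤ, ∀ z, F (m * (2 * Real.pi)) z = z := fun m z => by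
        induction m using Int.induction_on with
        | zero => simpa using h0 z
        | succ m ih => rw [Int.cast_add, add_mul, Int.cast_one, one_mul, ha, h2, ih]
        | pred m ih =>
          conv_rhs => rw [← ih]
          rw [← h2 (F _ z), ← ha]
          congr 1
          push_cast
          ring
      obtain ⟨m, rfl | rfl⟩ := Int.even_or_odd' n
      · rwa [show ((2 * m : ℤ) : ℝ) * Real.pi = m * (2 * Real.pi) by push_cast; ring, per]
      · rw [show ((2 * m + 1 : ℤ) : ℝ) * Real.pi = m * (2 * Real.pi) + Real.pi by push_cast; ring, ha,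
          per]
        exact ⟨hy.2, by rw [mem_preimage, hπ2]; exact hy.1⟩
    by_contra hn
    obtain ⟨q, -, ⟨s, h1, h3⟩, s', h4, h5⟩ := isPreconnected_univ _ _
      (op _ (hu.inter (hu.preimage cπ))) (op _ (hv.union (hv.preimage cπ))) (fun q _ => by
        have h1 : Φ (F (Complex.arg (c / Φ q : Circle) / 2) q) = c := by
          rw [hr, e2, mul_div_cancel₀ _ two_ne_zero, Circle.exp_arg, div_mul_cancel]
        rcases huv h1 with h3 | h3
        · rcases huv ((hπ _).trans h1) with h4 | h4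
          exacts [.inl ⟨_, ⟨h3, h4⟩, h1⟩, .inr ⟨_, .inr h4, h1⟩]
        · exact .inr ⟨_, .inl h3, h1⟩)
      ⟨p₀, trivial, 0, by rw [h0]; exact ⟨⟨h₀, by rwa [mem_preimage, hf]⟩, hp⟩⟩
      ⟨x, trivial, 0, by rw [h0]; exact ⟨.inl ((huv hx).resolve_left hn), hx⟩⟩
    have h6 : Circle.exp (2 * s') = Circle.exp (2 * s) := by
      rw [hr, e2] at h3 h5
      exact mul_right_cancel (h5.trans h3.symm)
    obtain ⟨n, hn⟩ := Circle.exp_eq_exp.1 h6
    have h7 := inv n _ h3 h1
    rw [← ha, show n * Real.pi + s = s' by linarith] at h7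
    rcases h4 with h4 | h4
    exacts [dj _ h5 h7.1 h4, dj _ ((hπ _).trans h5) h7.2 h4]
  rw [isPreconnected_iff_subset_of_disjoint]
  intro u v hu hv huv hd
  rcases huv hp with h | h
  · exact .inl (key u v hu hv huv hd h)
  · exact .inr (key v u hv hu (by rwa [union_comm]) (by rwa [inter_comm v]) h)

variable {t : Tube} {r : ℝ}

theorem continuousOn_qa : ContinuousOn (qa t) {v | ff v ≠ 0} := fun _ h =>
  (ld_qa h).contMDiffAt.continuousAt.continuousWithinAt

theorem conn_Q (hr : 2 ≤ r) : IsPreconnected (Q t r) := by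
  have hb : IsPreconnected (range (qb t)) := isPreconnected_range ld_qb.contMDiff.continuous
  have hV : IsPreconnected {v : Circle × ℂ | ‖v.2‖ < r} := by
    have := isPreconnected_univ.prod ((convex_ball (0 : ℂ) r).isPreconnected) (α := Circle)
    rwa [← Tube.otube_eq] at this
  have key : ∀ u v : Set (C0 t), IsOpen u → IsOpen v → Q t r ⊆ u ∪ v → Q t r ∩ (u ∩ v) = ∅ →
      range (qb t) ⊆ u → Q t r ⊆ u := by
    rintro u v hu hv huv hd hs _ (⟨w, hw, rfl⟩ | hx)
    · by_contra hn
      obtain ⟨y, hy, h1, h2, h3⟩ := hV ({v | ff v ≠ 0} ∩ qa t ⁻¹' u ∪ range cT) ({v | ff v ≠ 0} ∩ qa t ⁻¹' v)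
        ((continuousOn_qa.isOpen_inter_preimage isOpen_ff_ne hu).union
          (ld_isOpenEmbedding ld_cT cT_injective).isOpen_range)
        (continuousOn_qa.isOpen_inter_preimage isOpen_ff_ne hv) (fun y hy => by
          by_cases h : ff y = 0
          · exact .inl (.inr (mem_range_cT.2 (by simp [h])))
          · rcases huv ((qa_mem_Q hr h).2 hy) with h' | h'
            exacts [.inl (.inl ⟨h, h'⟩), .inr ⟨h, h'⟩])
        ⟨cT (1, 0), (norm_cT_lt _).trans_le hr, .inr ⟨_, rfl⟩⟩
        ⟨w, hw.2, hw.1, (huv (.inl ⟨w, hw, rfl⟩)).resolve_left hn⟩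
      refine (hd.subset ⟨(qa_mem_Q hr h2).2 hy, ?_, h3⟩ : _ ∈ (∅ : Set (C0 t)))
      rcases h1 with h1 | ⟨a, rfl⟩
      · exact h1.2
      · have h4 : a.2 ≠ 0 := mt ff_cT_eq_zero.2 h2
        have h5 := qa_cT (t := t) (mon_ne 1 0 0 1 h4)
        rw [mon_mon _ _ _ _ _ _ _ _ h4] at h5
        exact hs ⟨_, h5.symm.trans (congrArg (qa t ∘ cT) (mon_id a))⟩
    · exact hs hx
  rw [isPreconnected_iff_subset_of_disjoint]
  intro u v hu hv huv hd
  rcases isPreconnected_iff_subset_of_disjoint.1 hb u v hu hv (subset_union_right.trans huv)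
    (subset_empty_iff.1 fun x hx => hd.subset ⟨.inr hx.1, hx.2⟩) with h | h
  · exact .inl (key u v hu hv huv hd h)
  · exact .inr (key v u hv hu (by rwa [union_comm]) (by rwa [inter_comm v]) h)

/-- the Seifert action on `Q t r`, slowed down to the identity outside `Q t (r + 1)` -/
def fla (t : Tube) (r s : ℝ) : C0 t → C0 t :=
  gl t (fun v => qa t (act (Circle.exp (bp r v.2 * s)) v)) (fun a => qb t (act (Circle.exp s) a)) (io t)

theorem fla_match (hr : 2 ≤ r) (s : ℝ) (a : Circle × ℂ) (h : a.2 ≠ 0) :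
    qa t (act (Circle.exp (bp r (cT (mon 1 0 0 1 a)).2 * s)) (cT (mon 1 0 0 1 a))) =
      qb t (act (Circle.exp s) a) := by
  rw [bp_one ((norm_cT_lt _).le.trans hr), one_mul, act_mon0 _ h, qa_cT (act_ne _ h)]

theorem fla_qb (s : ℝ) (a : Circle × ℂ) : fla t r s (qb t a) = qb t (act (Circle.exp s) a) := gl_qb a

theorem fla_qa (hr : 2 ≤ r) (s : ℝ) {v : Circle × ℂ} (h : ff v ≠ 0) :
    fla t r s (qa t v) = qa t (act (Circle.exp (bp r v.2 * s)) v) := gl_qa (fla_match hr s) h

theorem fla_qa' (hr : 2 ≤ r) (s : ℝ) {v : Circle × ℂ} (h : ff v ≠ 0) (h' : ‖v.2‖ ≤ r) :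
    fla t r s (qa t v) = qa t (act (Circle.exp s) v) := by rw [fla_qa hr s h, bp_one h', one_mul]

theorem fla_far (hr : 2 ≤ r) (s : ℝ) {x : S3} (h : x ∉ otube t (r + 1)) : fla t r s (io t x) = io t x :=
  gl_far (fla_match hr s) (by linarith) (fun v hv => by
    rw [bp_zero (by linarith) hv, zero_mul, Circle.exp_zero, act_one]; rfl) h

theorem contMDiff_fla (hr : 2 ≤ r) :
    ContMDiff (𝓘(ℝ, ℝ).prod (𝓡 3)) (𝓡 3) ∞ fun p : ℝ × C0 t => fla t r p.1 p.2 := by
  refine contMDiff_C0 (fun s x hx => ?_) (fun s v hv => ?_) fun s a => ?_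
  · refine ((ld_io (mem_cab_of_range hx)).contMDiffAt.comp (s, x)
      contMDiffAt_snd).congr_of_eventuallyEq ?_
    filter_upwards [continuousAt_snd.eventually (ev_far (r + 1) hx)] with p hp
    exact fla_far hr _ hp
  · refine ((ld_qa (ff_act_ne _ hv)).contMDiffAt.comp (s, v)
      (cact ((contMDiff_circleExp _).comp (s, v) ((((contDiff_bp r).contMDiff _).comp (s, v)
        contMDiffAt_snd.snd).mul contMDiffAt_fst)) contMDiffAt_snd)).congr_of_eventuallyEq ?_
    filter_upwards [continuousAt_snd.eventually (ev_ff hv)] with p hp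
    exact fla_qa hr _ hp
  · simp only [fla_qb]
    exact (ld_qb _).contMDiffAt.comp (s, a)
      (cact ((contMDiff_circleExp _).comp (s, a) contMDiffAt_fst) contMDiffAt_snd)

theorem Q_ind {P : C0 t → Prop} (h₁ : ∀ v, ff v ≠ 0 → ‖v.2‖ < r → P (qa t v)) (h₂ : ∀ a, P (qb t a))
    {p : C0 t} (hp : p ∈ Q t r) : P p := by
  rcases hp with ⟨v, hv, rfl⟩ | ⟨a, rfl⟩
  exacts [h₁ v hv.1 hv.2, h₂ a]

theorem fla_mem (hr : 2 ≤ r) (s : ℝ) {p : C0 t} (hp : p ∈ Q t r) : fla t r s p ∈ Q t r :=
  Q_ind (P := fun p => fla t r s p ∈ Q t r)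
    (fun v h h' => by rwa [fla_qa' hr s h h'.le, qa_mem_Q hr (ff_act_ne _ h), norm_act])
    (fun a => by rw [fla_qb]; exact qb_mem_Q _ _) hp

/-- the cabling annulus is connected -/
theorem conn_lev (k : KD) (hr : 2 ≤ r) (c : Circle) : IsConnected (Q k.toTube r ∩ Phi k ⁻¹' {c}) := by
  refine ⟨⟨qb _ (c, 0), qb_mem_Q _ _, Phi_qb k _⟩, ?_⟩
  haveI := isPreconnected_iff_preconnectedSpace.1 (conn_Q (t := k.toTube) hr)
  have h := conn_level (X := Q k.toTube r) (F := fun s p => ⟨fla _ r s p, fla_mem hr s p.2⟩)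
    (Φ := fun p => Phi k p) (c := c) (p₀ := ⟨qb _ (c, 0), qb_mem_Q _ _⟩)
    (((contMDiff_fla hr).continuous.comp (continuous_fst.prodMk
      (continuous_subtype_val.comp continuous_snd))).subtype_mk _)
    (fun p => Subtype.ext <| Q_ind (P := fun p => fla _ r 0 p = p)
      (fun v h h' => by rw [fla_qa' hr _ h h'.le, Circle.exp_zero, act_one])
      (fun a => by rw [fla_qb, Circle.exp_zero, act_one]) p.2)
    (fun s s' p => Subtype.ext <| Q_ind (P := fun p => fla _ r (s + s') p = fla _ r s (fla _ r s' p))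
      (fun v h h' => by
        rw [fla_qa' hr _ h h'.le, fla_qa' hr _ h h'.le,
          fla_qa' hr _ (ff_act_ne _ h) (by rw [norm_act]; exact h'.le), act_mul, Circle.exp_add])
      (fun a => by rw [fla_qb, fla_qb, fla_qb, act_mul, Circle.exp_add]) p.2)
    (fun p => Subtype.ext <| Q_ind (P := fun p => fla _ r (2 * Real.pi) p = p)
      (fun v h h' => by rw [fla_qa' hr _ h h'.le, Circle.exp_two_pi, act_one])
      (fun a => by rw [fla_qb, Circle.exp_two_pi, act_one]) p.2)
    ((contMDiff_Phi k).continuous.comp continuous_subtype_val)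
    (fun s p => Q_ind (P := fun p => Phi k (fla _ r s p) = Circle.exp s ^ 2 * Phi k p)
      (fun v h h' => by
        rw [fla_qa' hr _ h h'.le, Phi_qa k (ff_act_ne _ h), ff_act, dir_coe_mul _ h, Phi_qa k h])
      (fun a => by rw [fla_qb, Phi_qb, Phi_qb, act]) p.2)
    (Phi_qb k _) (Subtype.ext <| by
      show fla _ r _ (qb _ _) = qb _ _
      rw [fla_qb, act, sq, ← Circle.exp_add, ← two_mul, Circle.exp_two_pi, one_mul, mul_zero])
  have h2 := h.image _ continuous_subtype_val.continuousOn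
  rwa [show (fun p : Q k.toTube r => Phi k p) ⁻¹' {c} = Subtype.val ⁻¹' (Phi k ⁻¹' {c}) from rfl,
    Subtype.image_preimage_coe] at h2

/-- beyond radius `3` the level of `c ^ 2` consists of the two pages `c`, `-c` -/
theorem lev_far (k : KD) {x : S3} (h : x ∉ otube k.toTube 3) (c : Circle) :
    Phi k (io k.toTube x) = c ^ 2 ↔ thK k x = c ∨ thK k x = -c := by
  rw [Phi_far k h, Circle.ext_iff, Circle.ext_iff, Circle.ext_iff, sq, sq, Circle.coe_mul,
    Circle.coe_mul, mul_self_eq_mul_self_iff, Circle.coe_neg]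

end Crest.Agent.X212.Cab39
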