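import Crest.Agent.X212.Ext52.Seif

/-!
# X212 / Cab39 (helper39), part 1: the local model of the (2,1)-cable in `Circle × ℂ`

* `ff (y,z) = z² - cut z · y` : its zero set is the cable `z² = y`, `ff = z²` for `3 ≤ ‖z‖`;
* `act u (y,z) = (u² y, u z)` : the Seifert circle action, `ff (act u v) = u² ff v`;
* `cA (x,w) = (x², x √(1 + w/x²))` : tube coordinates of the cable, `ff (cA (x,w)) = w`, inverse `cB`;
* `tP n v = act (dd v ^ n) v` : the twist along the cabling annulus (`dd` is `act`-invariant).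
-/

set_option autoImplicit false
set_option linter.unusedSectionVars false
set_option linter.style.haveILetI false

open Set Filter Topology Function TopologicalSpace Metric
open scoped ContDiff Manifold
open Crest.GeometryTopology.DehnSurgery Crest.Agent.X212.Glue52 Crest.Agent.X212.Ext52

noncomputable section

namespace Crest.Agent.X212.Cab39

/-! ### complex valued calculus on manifolds -/

section calcC

variable {E : Type*} [NormedAddCommGroup E] [NormedSpace ℝ E] {H : Type*} [TopologicalSpace H]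
  {I : ModelWithCorners ℝ E H} {M : Type*} [TopologicalSpace M] [ChartedSpace H M] {x : M}

theorem cmul {f g : M → ℂ} (hf : ContMDiffAt I 𝓘(ℝ, ℂ) ∞ f x) (hg : ContMDiffAt I 𝓘(ℝ, ℂ) ∞ g x) :
    ContMDiffAt I 𝓘(ℝ, ℂ) ∞ (fun y => f y * g y) x :=
  ((contDiff_mul (𝔸 := ℂ) (𝕜 := ℝ)).contMDiff _).comp x (hf.prodMk_space hg)

theorem ccoe {f : M → Circle} (hf : ContMDiffAt I (𝓡 1) ∞ f x) :
    ContMDiffAt I 𝓘(ℝ, ℂ) ∞ (fun y => (f y : ℂ)) x := (contMDiff_circle_coe _).comp x hf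

theorem creal {f : M → ℝ} (hf : ContMDiffAt I 𝓘(ℝ, ℝ) ∞ f x) :
    ContMDiffAt I 𝓘(ℝ, ℂ) ∞ (fun y => (f y : ℂ)) x :=
  (Complex.ofRealCLM.contDiff.contMDiff _).comp x hf

theorem czpow (n : ℤ) {f : M → Circle} (hf : ContMDiffAt I (𝓡 1) ∞ f x) :
    ContMDiffAt I (𝓡 1) ∞ (fun y => f y ^ n) x := (contMDiff_zpow n _).comp x hf

theorem cdir {f : M → ℂ} (hf : ContMDiffAt I 𝓘(ℝ, ℂ) ∞ f x) (h : f x ≠ 0) :
    ContMDiffAt I (𝓡 1) ∞ (fun y => dir (f y)) x := (contMDiffAt_dir h).comp x hf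

end calcC

theorem dir_coe (u : Circle) : dir (u : ℂ) = u := by simpa using dir_mul one_pos u

theorem dir_coe_mul (u : Circle) {z : ℂ} (h : z ≠ 0) : dir (u * z) = u * dir z := by
  rw [dir_mul_dir u.coe_ne_zero h, dir_coe]

theorem coe_dir_of_norm {z : ℂ} (h : ‖z‖ = 1) : (dir z : ℂ) = z := by
  simpa [h] using norm_mul_dir z

/-! ### the defining function -/

/-- the cut-off -/
def cut (z : ℂ) : ℝ := Real.smoothTransition ((9 - ‖z‖ ^ 2) / 5)

theorem contDiff_cut : ContDiff ℝ ∞ cut :=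
  Real.smoothTransition.contDiff.comp ((contDiff_const.sub (contDiff_norm_sq ℝ)).div_const 5)

theorem cut_one {z : ℂ} (h : ‖z‖ ≤ 2) : cut z = 1 :=
  Real.smoothTransition.one_of_one_le (by nlinarith [norm_nonneg z])

theorem cut_zero {z : ℂ} (h : 3 ≤ ‖z‖) : cut z = 0 :=
  Real.smoothTransition.zero_of_nonpos (by nlinarith)

theorem cut_nonneg (z : ℂ) : 0 ≤ cut z := Real.smoothTransition.nonneg _

theorem cut_le_one (z : ℂ) : cut z ≤ 1 := Real.smoothTransition.le_one _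

theorem cut_mul (u : Circle) (z : ℂ) : cut (u * z) = cut z := by
  rw [cut, norm_mul, Circle.norm_coe, one_mul, cut]

/-- the defining function of the cable -/
def ff (v : Circle × ℂ) : ℂ := v.2 * v.2 - cut v.2 * v.1

theorem contMDiff_ff : ContMDiff IT 𝓘(ℝ, ℂ) ∞ ff := fun v =>
  (cmul contMDiffAt_snd contMDiffAt_snd).sub
    (cmul (creal ((contDiff_cut.contMDiff _).comp v contMDiffAt_snd)) (ccoe contMDiffAt_fst))

theorem ff_near {v : Circle × ℂ} (h : ‖v.2‖ ≤ 2) : ff v = v.2 * v.2 - v.1 := by simp [ff, cut_one h]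

theorem ff_far {v : Circle × ℂ} (h : 3 ≤ ‖v.2‖) : ff v = v.2 * v.2 := by simp [ff, cut_zero h]

theorem norm_lt_of_ff {v : Circle × ℂ} (h : ‖ff v‖ < 1) : ‖v.2‖ < 2 := by
  have h1 : ‖v.2 * v.2‖ ≤ ‖ff v‖ + ‖(cut v.2 : ℂ) * v.1‖ := by
    have := norm_add_le (ff v) ((cut v.2 : ℂ) * v.1)
    rwa [ff, sub_add_cancel] at this
  rw [norm_mul, norm_mul, Circle.norm_coe, Complex.norm_real, Real.norm_of_nonneg (cut_nonneg _)] at h1
  nlinarith [cut_le_one v.2, norm_nonneg v.2]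

theorem ff_ne_of_le {v : Circle × ℂ} (h : 2 ≤ ‖v.2‖) : ff v ≠ 0 := fun e =>
  (norm_lt_of_ff (by rw [e, norm_zero]; exact one_pos)).not_ge h

theorem ff_core (y : Circle) : ff (y, 0) = -y := by simp [ff_near (v := (y, 0))]

theorem dir_ff_far {v : Circle × ℂ} (h : 3 ≤ ‖v.2‖) : dir (ff v) = dir v.2 ^ 2 := by
  have h0 : v.2 ≠ 0 := norm_pos_iff.1 (by linarith)
  rw [ff_far h, dir_mul_dir h0 h0, sq]

/-! ### the circle action -/

/-- the Seifert action -/
def act (u : Circle) (v : Circle × ℂ) : Circle × ℂ := (u ^ 2 * v.1, u * v.2)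

theorem act_mul (u u' : Circle) (v : Circle × ℂ) : act u (act u' v) = act (u * u') v := by
  simp only [act, mul_pow, Circle.coe_mul, mul_assoc]

theorem act_one (v : Circle × ℂ) : act 1 v = v := by simp [act]

@[simp] theorem norm_act (u : Circle) (v : Circle × ℂ) : ‖(act u v).2‖ = ‖v.2‖ := by
  rw [act, norm_mul, Circle.norm_coe, one_mul]

theorem ff_act (u : Circle) (v : Circle × ℂ) : ff (act u v) = (u ^ 2 : Circle) * ff v := by
  simp only [ff, act, cut_mul, Circle.coe_mul, sq]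
  ring

theorem ff_act_ne (u : Circle) {v : Circle × ℂ} (h : ff v ≠ 0) : ff (act u v) ≠ 0 := by
  rw [ff_act]; exact mul_ne_zero (Circle.coe_ne_zero _) h

theorem cact {E : Type*} [NormedAddCommGroup E] [NormedSpace ℝ E] {H : Type*} [TopologicalSpace H]
    {I : ModelWithCorners ℝ E H} {M : Type*} [TopologicalSpace M] [ChartedSpace H M] {x : M}
    {u : M → Circle} {v : M → Circle × ℂ} (hu : ContMDiffAt I (𝓡 1) ∞ u x)
    (hv : ContMDiffAt I IT ∞ v x) : ContMDiffAt I IT ∞ (fun y => act (u y) (v y)) x :=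
  ((hu.pow 2).mul hv.fst).prodMk (cmul (ccoe hu) hv.snd)

/-! ### the tube of the cable -/

/-- the principal square root -/
def rt (w : ℂ) : ℂ := Complex.exp (Complex.log w / 2)

theorem rt_ne (w : ℂ) : rt w ≠ 0 := Complex.exp_ne_zero _

theorem rt_mul_self {w : ℂ} (h : w ≠ 0) : rt w * rt w = w := by
  rw [rt, ← Complex.exp_add, add_halves, Complex.exp_log h]

theorem rt_one : rt 1 = 1 := by simp [rt]

theorem contDiffAt_rt {w : ℂ} (h : w ∈ Complex.slitPlane) : ContDiffAt ℝ ∞ rt w :=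
  (((Complex.contDiffAt_log h).div_const 2).cexp).restrict_scalars ℝ

theorem one_add_slit {w : ℂ} (h : ‖w‖ < 1) (u : Circle) : 1 + w * (u : Circle) ∈ Complex.slitPlane :=
  Complex.mem_slitPlane_of_norm_lt_one (by rwa [norm_mul, Circle.norm_coe, mul_one])

theorem crt {E : Type*} [NormedAddCommGroup E] [NormedSpace ℝ E] {H : Type*} [TopologicalSpace H]
    {I : ModelWithCorners ℝ E H} {M : Type*} [TopologicalSpace M] [ChartedSpace H M] {x : M}
    {w : M → ℂ} {u : M → Circle} (hw : ContMDiffAt I 𝓘(ℝ, ℂ) ∞ w x) (hu : ContMDiffAt I (𝓡 1) ∞ u x)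
    (h : ‖w x‖ < 1) : ContMDiffAt I 𝓘(ℝ, ℂ) ∞ (fun y => rt (1 + w y * u y)) x :=
  ContMDiffAt.comp (g := rt) (f := fun y => 1 + w y * u y) x
    (contDiffAt_rt (one_add_slit h _)).contMDiffAt (contMDiffAt_const.add (cmul hw (ccoe hu)))

/-- tube coordinates around the cable -/
def cA (a : Circle × ℂ) : Circle × ℂ := (a.1 ^ 2, a.1 * rt (1 + a.2 * ((a.1 ^ 2)⁻¹ : Circle)))

/-- the inverse of `cA` -/
def cB (v : Circle × ℂ) : Circle × ℂ := (dir (v.2 * (rt (1 + ff v * (v.1⁻¹ : Circle)))⁻¹), ff v)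

theorem cA_sq {a : Circle × ℂ} (h : ‖a.2‖ < 1) : (cA a).2 * (cA a).2 - (cA a).1 = a.2 := by
  have h1 := rt_mul_self (Complex.slitPlane_ne_zero (one_add_slit h (a.1 ^ 2)⁻¹))
  have h2 := a.1.coe_ne_zero
  simp only [cA]
  rw [mul_mul_mul_comm, h1]
  simp only [Circle.coe_inv, sq, Circle.coe_mul]
  field_simp
  ring

theorem ff_cA {a : Circle × ℂ} (h : ‖a.2‖ < 1) : ff (cA a) = a.2 := by
  have h1 := cA_sq h
  have h2 : ‖(cA a).2 * (cA a).2‖ ≤ ‖a.2‖ + ‖((cA a).1 : ℂ)‖ := by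
    rw [← h1]; simpa using norm_add_le ((cA a).2 * (cA a).2 - (cA a).1) (cA a).1
  rw [norm_mul, Circle.norm_coe] at h2
  rw [ff_near (by nlinarith [norm_nonneg (cA a).2]), h1]

theorem cB_cA {a : Circle × ℂ} (h : ‖a.2‖ < 1) : cB (cA a) = a := by
  refine Prod.ext ?_ (ff_cA h)
  simp only [cB, ff_cA h]
  simp only [cA]
  rw [mul_inv_cancel_right₀ (rt_ne _), dir_coe]

theorem cA_cB {v : Circle × ℂ} (h : ‖ff v‖ < 1) : cA (cB v) = v := by
  set s := rt (1 + ff v * (v.1⁻¹ : Circle)) with hs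
  have h1 : s * s = 1 + ff v * (v.1⁻¹ : Circle) :=
    rt_mul_self (Complex.slitPlane_ne_zero (one_add_slit h _))
  have h2 : s ≠ 0 := rt_ne _
  have h3 := v.1.coe_ne_zero
  have h4 : (v.2 * s⁻¹) * (v.2 * s⁻¹) = v.1 := by
    rw [ff_near (norm_lt_of_ff h).le, Circle.coe_inv] at h1
    field_simp at h1 ⊢
    linear_combination -h1
  have h5 : ‖v.2 * s⁻¹‖ = 1 := by
    have := congrArg norm h4
    rw [norm_mul, Circle.norm_coe] at this
    nlinarith [norm_nonneg (v.2 * s⁻¹)]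
  have h6 : dir (v.2 * s⁻¹) ^ 2 = v.1 :=
    Circle.ext (by rw [sq, Circle.coe_mul, coe_dir_of_norm h5, h4])
  refine Prod.ext h6 ?_
  simp only [cA, cB, ← hs, h6, coe_dir_of_norm h5]
  exact inv_mul_cancel_right₀ h2 _

theorem contMDiffAt_cA {a : Circle × ℂ} (h : ‖a.2‖ < 1) : ContMDiffAt IT IT ∞ cA a :=
  (contMDiffAt_fst.pow 2).prodMk (cmul (ccoe contMDiffAt_fst)
    (crt contMDiffAt_snd (contMDiffAt_fst.pow 2).inv h))

theorem snd_ne_of_ff {v : Circle × ℂ} (h : ‖ff v‖ < 1) : v.2 ≠ 0 := fun e => by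
  rw [show v = (v.1, 0) from Prod.ext rfl e, ff_core, norm_neg, Circle.norm_coe] at h
  exact lt_irrefl _ h

theorem contMDiffAt_cB {v : Circle × ℂ} (h : ‖ff v‖ < 1) : ContMDiffAt IT IT ∞ cB v := by
  have h1 : ContMDiffAt IT 𝓘(ℝ, ℂ) ∞ (fun w : Circle × ℂ => rt (1 + ff w * (w.1⁻¹ : Circle))) v :=
    crt (contMDiff_ff v) contMDiffAt_fst.inv h
  have h2 : ContMDiffAt IT 𝓘(ℝ, ℂ) ∞ (fun w : Circle × ℂ => (rt (1 + ff w * (w.1⁻¹ : Circle)))⁻¹) v :=
    (contDiffAt_inv ℝ (rt_ne _)).contMDiffAt.comp v h1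
  exact (cdir (cmul contMDiffAt_snd h2) (mul_ne_zero (snd_ne_of_ff h) (inv_ne_zero (rt_ne _)))).prodMk
    (contMDiff_ff v)

theorem ld_cA {a : Circle × ℂ} (h : ‖a.2‖ < 1) : IsLocalDiffeomorphAt IT IT ∞ cA a :=
  ld_of_inverse (g := cB) (s := {a | ‖a.2‖ < 1}) (t := {v | ‖ff v‖ < 1})
    (isOpen_lt continuous_snd.norm continuous_const)
    (isOpen_lt contMDiff_ff.continuous.norm continuous_const) h
    (fun _ hb => (contMDiffAt_cA hb).contMDiffWithinAt)
    (fun _ hb => (contMDiffAt_cB hb).contMDiffWithinAt)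
    (fun b hb => show ‖ff (cA b)‖ < 1 by rwa [ff_cA hb]) (fun _ hb => hb)
    (fun _ hb => cB_cA hb) (fun _ hb => cA_cB hb)

/-- the tube of the cable, on the whole solid torus -/
def cT (a : Circle × ℂ) : Circle × ℂ := cA (shr a)

theorem ld_cT : IsLocalDiffeomorph IT IT ∞ cT := fun a =>
  (ld_shr a).comp IT (Circle × ℂ) (ld_cA (norm_shr_lt a))

theorem cT_injective : Injective cT := fun a b e => shr_injective <| by
  rw [← cB_cA (norm_shr_lt a), ← cB_cA (norm_shr_lt b)]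
  exact congrArg cB e

theorem ff_cT (a : Circle × ℂ) : ff (cT a) = (shr a).2 := ff_cA (norm_shr_lt a)

theorem ff_cT_eq_zero {a : Circle × ℂ} : ff (cT a) = 0 ↔ a.2 = 0 := by rw [ff_cT, shr_eq_zero]

theorem dir_ff_cT {a : Circle × ℂ} (h : a.2 ≠ 0) : dir (ff (cT a)) = dir a.2 := by
  rw [ff_cT, dir_shr h]

theorem norm_cT_lt (a : Circle × ℂ) : ‖(cT a).2‖ < 2 :=
  norm_lt_of_ff (by rw [ff_cT]; exact norm_shr_lt a)

theorem cT_core (x : Circle) : cT (x, 0) = (x ^ 2, (x : ℂ)) := by simp [cT, cA, shr, rt_one]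

theorem exists_shr {a : Circle × ℂ} (h : ‖a.2‖ < 1) : ∃ b, shr b = a :=
  ⟨(a.1, OpenPartialHomeomorph.univUnitBall.symm a.2), Prod.ext rfl
    (OpenPartialHomeomorph.univUnitBall.right_inv (mem_ball_zero_iff.2 h))⟩

theorem mem_range_cT {v : Circle × ℂ} : v ∈ range cT ↔ ‖ff v‖ < 1 := by
  refine ⟨?_, fun h => ?_⟩
  · rintro ⟨a, rfl⟩
    rw [ff_cT]; exact norm_shr_lt a
  · obtain ⟨b, e⟩ := exists_shr (a := cB v) h
    exact ⟨b, by rw [cT, e, cA_cB h]⟩

theorem exists_cT_core {v : Circle × ℂ} (h : ff v = 0) : ∃ x, cT (x, 0) = v := by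
  obtain ⟨a, rfl⟩ := mem_range_cT.2 (show ‖ff v‖ < 1 by simp [h])
  exact ⟨a.1, congrArg cT (Prod.ext rfl (ff_cT_eq_zero.1 h).symm)⟩

theorem act_cA (u : Circle) (a : Circle × ℂ) :
    act u (cA a) = cA (u * a.1, (u ^ 2 : Circle) * a.2) := by
  have e : ((u ^ 2 : Circle) : ℂ) * a.2 * (((u * a.1) ^ 2)⁻¹ : Circle) = a.2 * ((a.1 ^ 2)⁻¹ : Circle) := by
    have := u.coe_ne_zero
    have := a.1.coe_ne_zero
    simp only [sq, Circle.coe_inv, Circle.coe_mul]
    field_simp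
  simp only [act, cA, e]
  rw [mul_pow, Circle.coe_mul, mul_assoc]

theorem shr_coe_mul (x u : Circle) (w : ℂ) : shr (x, u * w) = (x, u * (shr (x, w)).2) := by
  refine Prod.ext rfl ?_
  simp only [shr_snd, norm_mul, Circle.norm_coe, one_mul]
  ring

theorem act_cT (u : Circle) (a : Circle × ℂ) :
    act u (cT a) = cT (u * a.1, (u ^ 2 : Circle) * a.2) := by
  rw [cT, cT, act_cA, shr_coe_mul]
  rfl

/-! ### the twist along the cabling annulus -/

/-- the invariant angle -/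
def dd (v : Circle × ℂ) : Circle := dir (ff v) * v.1⁻¹

theorem dd_act (u : Circle) {v : Circle × ℂ} (h : ff v ≠ 0) : dd (act u v) = dd v := by
  rw [dd, ff_act, dir_coe_mul _ h, dd]
  simp only [act, mul_inv]
  rw [mul_mul_mul_comm, mul_inv_cancel, one_mul]

theorem contMDiffAt_dd {v : Circle × ℂ} (h : ff v ≠ 0) : ContMDiffAt IT (𝓡 1) ∞ dd v :=
  (cdir (contMDiff_ff v) h).mul contMDiffAt_fst.inv

/-- the twist -/
def tP (n : ℤ) (v : Circle × ℂ) : Circle × ℂ := act (dd v ^ n) v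

theorem ff_tP (n : ℤ) {v : Circle × ℂ} : ff (tP n v) ≠ 0 ↔ ff v ≠ 0 := by
  rw [tP, ff_act, mul_ne_zero_iff, and_iff_right (Circle.coe_ne_zero _)]

theorem tP_tP (m n : ℤ) {v : Circle × ℂ} (h : ff v ≠ 0) : tP m (tP n v) = tP (m + n) v := by
  rw [tP, tP, dd_act _ h, act_mul, tP, zpow_add]

theorem tP_zero (v : Circle × ℂ) : tP 0 v = v := by rw [tP, zpow_zero, act_one]

theorem tP_neg (n : ℤ) {v : Circle × ℂ} (h : ff v ≠ 0) : tP (-n) (tP n v) = v := by
  rw [tP_tP _ _ h, neg_add_cancel, tP_zero]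

theorem tP_neg' (n : ℤ) {v : Circle × ℂ} (h : ff v ≠ 0) : tP n (tP (-n) v) = v := by
  rw [tP_tP _ _ h, add_neg_cancel, tP_zero]

theorem contMDiffAt_tP (n : ℤ) {v : Circle × ℂ} (h : ff v ≠ 0) : ContMDiffAt IT IT ∞ (tP n) v :=
  cact (czpow n (contMDiffAt_dd h)) contMDiffAt_id

theorem isOpen_ff_ne : IsOpen {v | ff v ≠ 0} := isOpen_ne.preimage contMDiff_ff.continuous

theorem ld_tP (n : ℤ) {v : Circle × ℂ} (h : ff v ≠ 0) : IsLocalDiffeomorphAt IT IT ∞ (tP n) v :=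
  ld_of_inverse (g := tP (-n)) isOpen_ff_ne isOpen_ff_ne h
    (fun _ hb => (contMDiffAt_tP n hb).contMDiffWithinAt)
    (fun _ hb => (contMDiffAt_tP (-n) hb).contMDiffWithinAt) (fun _ hb => (ff_tP n).2 hb)
    (fun _ hb => (ff_tP (-n)).2 hb) (fun _ hb => tP_neg n hb) (fun _ hb => tP_neg' n hb)

theorem zp (x y : Circle) (n k l : ℤ) : (x ^ k * y ^ l) ^ n = x ^ (k * n) * y ^ (l * n) := by
  rw [mul_zpow, ← zpow_mul, ← zpow_mul]

theorem mul_polar (u : Circle) (z : ℂ) : u * z = (‖z‖ : ℂ) * (u * dir z : Circle) := by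
  rw [Circle.coe_mul, mul_left_comm, norm_mul_dir]

/-- far from the cable the twist is a monomial map -/
theorem tP_far (n : ℤ) {v : Circle × ℂ} (h : 3 ≤ ‖v.2‖) :
    tP n v = mon (4 * n) (1 - 2 * n) (1 + 2 * n) (-n) v := by
  have e : dd v = dir v.2 ^ (2 : ℤ) * v.1 ^ (-1 : ℤ) := by
    rw [dd, dir_ff_far h, zpow_neg_one, zpow_ofNat]
  refine Prod.ext ?_ ?_
  · simp only [tP, act, mon, e]
    rw [← zpow_ofNat, zp, zp, mul_assoc, ← zpow_add_one]
    congr 2 <;> ring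
  · simp only [tP, act, mon, e]
    rw [mul_polar, zp, mul_right_comm, ← zpow_add_one]
    congr 4 <;> ring

/-- in the tube of the cable the twist is a monomial map -/
theorem tP_cT (n : ℤ) {a : Circle × ℂ} (h : a.2 ≠ 0) :
    tP n (cT a) = cT (mon n (1 - 2 * n) (1 + 2 * n) (-4 * n) a) := by
  have e : dd (cT a) = dir a.2 ^ (1 : ℤ) * a.1 ^ (-2 : ℤ) := by
    rw [dd, dir_ff_cT h, zpow_one, zpow_neg, zpow_ofNat]
    rfl
  rw [tP, act_cT, e]
  refine congrArg cT (Prod.ext ?_ ?_)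
  · simp only [mon]
    rw [zp, mul_assoc, ← zpow_add_one]
    congr 2 <;> ring
  · simp only [mon]
    rw [mul_polar, ← zpow_ofNat, zp, zp, mul_right_comm, ← zpow_add_one]
    congr 4 <;> ring

end Crest.Agent.X212.Cab39
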