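import Crest.Agent.X212.Cab39.Defs

/-!
# X212 / Cab39 (helper39), part 4: zero surgery on the cable

* `phi0 c : Fill c σ0 → Circle` : the circle map of a zero filling (`θ` outside, `fst` on the torus);
* `C0 t = Fill (cabT t) σ0`, `qa t : Circle × ℂ → C0 t` (the tube of the companion minus the cable),
  `Q t r` (the part inside radius `r`), `Phi k`;
* `flo t R s : C0 t → C0 t` : a smooth global flow, the Seifert action on `Q t 3`, the meridional
  rotation in `4 ≤ ‖z‖ ≤ R`, the identity outside `Q t (R+1)`; `Phi (flo s p) = exp (2 s sp p) * Phi p`.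
-/

set_option autoImplicit false
set_option linter.unusedSectionVars false
set_option linter.style.haveILetI false

open Set Filter Topology Function TopologicalSpace Metric
open scoped ContDiff Manifold
open Crest.GeometryTopology.DehnSurgery Crest.Agent.X212.Glue52 Crest.Agent.X212.Ext52

noncomputable section

namespace Crest.Agent.X212.Cab39

theorem ld_image_mem {E : Type*} [NormedAddCommGroup E] [NormedSpace ℝ E] {H : Type*}
    [TopologicalSpace H] {I : ModelWithCorners ℝ E H} {M : Type*} [TopologicalSpace M]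
    [ChartedSpace H M] {E' : Type*} [NormedAddCommGroup E'] [NormedSpace ℝ E'] {H' : Type*}
    [TopologicalSpace H'] {J : ModelWithCorners ℝ E' H'} {N : Type*} [TopologicalSpace N]
    [ChartedSpace H' N] {f : M → N} {x : M} (h : IsLocalDiffeomorphAt I J ∞ f x) {s : Set M}
    (hs : s ∈ 𝓝 x) : f '' s ∈ 𝓝 (f x) := by
  have h1 : s ∈ 𝓝 (h.localInverse (f x)) := by
    rwa [h.localInverse_left_inv h.localInverse_mem_target]
  filter_upwards [h.localInverse_eventuallyEq_right,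
    h.localInverse_contMDiffAt.continuousAt.preimage_mem_nhds h1] with y e hy
  exact ⟨_, hy, e⟩

/-- slope `0/1` -/
def σ0 : FillingData := ⟨0, 1, 1, 0, by norm_num⟩

theorem mon0 (a : Circle × ℂ) : mon 1 0 0 1 a = (dir a.2, (‖a.2‖ : ℂ) * a.1) := by simp [mon]

theorem ie_eq_it0 (t : Tube) {x : t.Ext} {a : Circle × ℂ} :
    t.ie σ0 x = t.it σ0 a ↔ a.2 ≠ 0 ∧ t.τ (mon 1 0 0 1 a) = x := t.ie_eq_it σ0

/-- the circle map of the zero filling -/
def phi0 (c : KD) : Fill c.toTube σ0 → Circle := (c.two σ0).lift c.θ Prod.fst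

theorem phi0_match (c : KD) (n : Cz) : c.θ ((c.two σ0).j₁ n) = ((c.two σ0).j₂ n).1 :=
  (c.θτ (tw σ0 n)).trans ((dir_mon 1 0 0 1 n.2).trans (by simp [Tube.two]))

theorem phi0_ie (c : KD) (x : c.Ext) : phi0 c (c.ie σ0 x) = c.θ x := Two.lift_inl _ (phi0_match c) x

theorem phi0_it (c : KD) (a : Circle × ℂ) : phi0 c (c.it σ0 a) = a.1 := Two.lift_inr _ _ _ a

theorem contMDiff_phi0 (c : KD) : ContMDiff (𝓡 3) (𝓡 1) ∞ (phi0 c) :=
  Two.contMDiff_lift _ (phi0_match c) c.smθ contMDiff_fst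

/-- zero surgery on the cable -/
abbrev C0 (t : Tube) : Type := Fill (cabT t) σ0

variable (t : Tube)

/-- the sphere minus the cable in `C0` -/
def io : S3 → C0 t := ex ((cabT t).ie σ0) ((cabT t).it σ0 (1, 0))

/-- the tube of the companion minus the cable in `C0` -/
def qa (v : Circle × ℂ) : C0 t := io t (t.τ v)

/-- the filling torus -/
abbrev qb : Circle × ℂ → C0 t := (cabT t).it σ0

variable {t}

theorem io_mem {x : S3} (h : x ∈ (cabT t).Ext) : io t x = (cabT t).ie σ0 ⟨x, h⟩ := ex_mem _ _ h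

theorem ld_io {x : S3} (h : x ∈ (cabT t).Ext) : IsLocalDiffeomorphAt (𝓡 3) (𝓡 3) ∞ (io t) x :=
  ld_ex h (((cabT t).two σ0).ld_inl _)

theorem io_inj {x y : S3} (h : x ∈ (cabT t).Ext) (h' : y ∈ (cabT t).Ext) (e : io t x = io t y) :
    x = y := by
  rw [io_mem h, io_mem h'] at e
  exact congrArg Subtype.val (((cabT t).two σ0).inl_injective e)

theorem ld_qa {v : Circle × ℂ} (h : ff v ≠ 0) : IsLocalDiffeomorphAt IT (𝓡 3) ∞ (qa t) v :=
  (t.ld v).comp _ _ (ld_io (τ_mem_cab.2 h))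

theorem qa_inj {v w : Circle × ℂ} (h : ff v ≠ 0) (h' : ff w ≠ 0) (e : qa t v = qa t w) : v = w :=
  t.inj (io_inj (τ_mem_cab.2 h) (τ_mem_cab.2 h') e)

theorem ld_qb : IsLocalDiffeomorph IT (𝓡 3) ∞ (qb t) := ((cabT t).two σ0).ld_inr

theorem qb_inj : Injective (qb t) := ((cabT t).two σ0).inr_injective

theorem io_eq_qb {x : S3} (h : x ∈ (cabT t).Ext) {a : Circle × ℂ} :
    io t x = qb t a ↔ a.2 ≠ 0 ∧ t.τ (cT (mon 1 0 0 1 a)) = x := by
  rw [io_mem h]; exact ie_eq_it0 _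

theorem ff_cT_mon {a : Circle × ℂ} (h : a.2 ≠ 0) : ff (cT (mon 1 0 0 1 a)) ≠ 0 :=
  mt ff_cT_eq_zero.1 (mon_ne _ _ _ _ h)

theorem qa_eq_qb {v : Circle × ℂ} (h : ff v ≠ 0) {a : Circle × ℂ} :
    qa t v = qb t a ↔ a.2 ≠ 0 ∧ cT (mon 1 0 0 1 a) = v :=
  (io_eq_qb (τ_mem_cab.2 h)).trans (and_congr_right fun _ => t.inj.eq_iff)

theorem qa_cT {a : Circle × ℂ} (h : a.2 ≠ 0) : qa t (cT (mon 1 0 0 1 a)) = qb t a :=
  (qa_eq_qb (ff_cT_mon h)).2 ⟨h, rfl⟩

/-- three kinds of points -/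
theorem C0_ind {P : C0 t → Prop} (h₁ : ∀ x ∉ range t.τ, P (io t x)) (h₂ : ∀ v, ff v ≠ 0 → P (qa t v))
    (h₃ : ∀ a, P (qb t a)) (p : C0 t) : P p := by
  refine ((cabT t).two σ0).ind (fun x => ?_) h₃ p
  rw [show ((cabT t).two σ0).inl x = io t x from (io_mem x.2).symm]
  by_cases h : x.1 ∈ range t.τ
  · obtain ⟨v, e⟩ := h
    rw [← e]
    exact h₂ v (τ_mem_cab.1 (e ▸ x.2))
  · exact h₁ _ h

theorem mem_cab_of_range {x : S3} (h : x ∉ range t.τ) : x ∈ (cabT t).Ext :=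
  mem_cab_of_otube le_rfl (not_mem_otube 2 h)

/-! ### gluing functions on `C0` -/

section Glue

variable {Z : Type*} (t) (F G : Circle × ℂ → Z) (O : S3 → Z)

/-- the function given by `F` in the chart `qa`, `G` in the chart `qb` and `O` outside the tube -/
def gl : C0 t → Z := ((cabT t).two σ0).lift (fun x => extend t.τ F O x) G

variable {t F G O}

theorem gl_qb (a : Circle × ℂ) : gl t F G O (qb t a) = G a := Two.lift_inr _ _ _ a

theorem gl_io (h : ∀ a, a.2 ≠ 0 → F (cT (mon 1 0 0 1 a)) = G a) {x : S3} (hx : x ∈ (cabT t).Ext) :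
    gl t F G O (io t x) = extend t.τ F O x := by
  rw [io_mem hx]
  exact Two.lift_inl _ (fun n : Cz => (t.inj.extend_apply _ _ _).trans (h n n.2)) _

theorem gl_qa (h : ∀ a, a.2 ≠ 0 → F (cT (mon 1 0 0 1 a)) = G a) {v : Circle × ℂ} (hv : ff v ≠ 0) :
    gl t F G O (qa t v) = F v := (gl_io h (τ_mem_cab.2 hv)).trans (t.inj.extend_apply _ _ _)

theorem gl_far (h : ∀ a, a.2 ≠ 0 → F (cT (mon 1 0 0 1 a)) = G a) {r : ℝ} (hr : 2 ≤ r)
    (h' : ∀ v, r ≤ ‖v.2‖ → F v = O (t.τ v)) {x : S3} (hx : x ∉ otube t r) :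
    gl t F G O (io t x) = O x := (gl_io h (mem_cab_of_otube hr hx)).trans (extend_far h' hx)

end Glue

/-- smoothness of a family of maps out of `C0` is tested in the three charts -/
theorem contMDiff_C0 {E : Type*} [NormedAddCommGroup E] [NormedSpace ℝ E] {H : Type*}
    [TopologicalSpace H] {J : ModelWithCorners ℝ E H} {Z : Type*} [TopologicalSpace Z]
    [ChartedSpace H Z] {E' : Type*} [NormedAddCommGroup E'] [NormedSpace ℝ E'] {H' : Type*}
    [TopologicalSpace H'] {K : ModelWithCorners ℝ E' H'} {P : Type*} [TopologicalSpace P]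
    [ChartedSpace H' P] {g : P × C0 t → Z}
    (h₁ : ∀ s, ∀ x ∉ range t.τ, ContMDiffAt (K.prod (𝓡 3)) J ∞ (fun p => g (p.1, io t p.2)) (s, x))
    (h₂ : ∀ s v, ff v ≠ 0 → ContMDiffAt (K.prod IT) J ∞ (fun p => g (p.1, qa t p.2)) (s, v))
    (h₃ : ∀ s a, ContMDiffAt (K.prod IT) J ∞ (fun p => g (p.1, qb t p.2)) (s, a)) :
    ContMDiff (K.prod (𝓡 3)) J ∞ g := by
  rintro ⟨s, p⟩
  refine C0_ind (P := fun p => ContMDiffAt (K.prod (𝓡 3)) J ∞ g (s, p)) (fun x hx => ?_)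
    (fun v hv => ?_) (fun a => ?_) p
  · exact contMDiffAt_of_comp (ld_prodMap_at (ld_id s) (ld_io (mem_cab_of_range hx))) (h₁ s x hx)
  · exact contMDiffAt_of_comp (ld_prodMap_at (ld_id s) (ld_qa hv)) (h₂ s v hv)
  · exact contMDiffAt_of_comp (ld_prodMap_at (ld_id s) (ld_qb a)) (h₃ s a)

theorem ev_ff {v : Circle × ℂ} (h : ff v ≠ 0) : ∀ᶠ w in 𝓝 v, ff w ≠ 0 := isOpen_ff_ne.mem_nhds h

theorem ev_far (r : ℝ) {x : S3} (h : x ∉ range t.τ) : ∀ᶠ y in 𝓝 x, y ∉ otube t r := by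
  filter_upwards [(isClosed_ctube t r).isOpen_compl.mem_nhds fun h' => h (image_subset_range _ _ h')]
    with y hy using fun h' => hy (otube_subset t r h')

/-! ### the part inside a given radius -/

/-- the part of `C0` inside radius `r` -/
def Q (t : Tube) (r : ℝ) : Set (C0 t) := qa t '' {v | ff v ≠ 0 ∧ ‖v.2‖ < r} ∪ range (qb t)

theorem qb_mem_Q (r : ℝ) (a : Circle × ℂ) : qb t a ∈ Q t r := .inr ⟨a, rfl⟩

theorem qa_mem_Q {r : ℝ} (hr : 2 ≤ r) {v : Circle × ℂ} (h : ff v ≠ 0) : qa t v ∈ Q t r ↔ ‖v.2‖ < r := by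
  refine ⟨?_, fun h' => .inl ⟨v, ⟨h, h'⟩, rfl⟩⟩
  rintro (⟨w, hw, e⟩ | ⟨a, e⟩)
  · exact qa_inj hw.1 h e ▸ hw.2
  · exact ((qa_eq_qb h).1 e.symm).2 ▸ (norm_cT_lt _).trans_le hr

theorem io_mem_Q {r : ℝ} (hr : 2 ≤ r) {x : S3} (h : x ∈ (cabT t).Ext) :
    io t x ∈ Q t r ↔ x ∈ otube t r := by
  by_cases hx : x ∈ range t.τ
  · obtain ⟨v, rfl⟩ := hx
    exact (qa_mem_Q hr (τ_mem_cab.1 h)).trans τ_mem_otube.symm
  · refine iff_of_false ?_ (not_mem_otube r hx)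
    rintro (⟨w, hw, e⟩ | ⟨a, e⟩)
    · exact hx ⟨w, io_inj (τ_mem_cab.2 hw.1) h e⟩
    · exact hx ⟨_, ((io_eq_qb h).1 e.symm).2⟩

theorem compl_Q {r : ℝ} (hr : 2 ≤ r) : (Q t r)ᶜ = io t '' (otube t r)ᶜ := by
  ext p
  refine ⟨C0_ind (P := fun p => p ∉ Q t r → p ∈ io t '' (otube t r)ᶜ) ?_ ?_ ?_ p, ?_⟩
  · exact fun x hx _ => ⟨x, not_mem_otube r hx, rfl⟩
  · exact fun v hv h => ⟨t.τ v, fun h' => h ((qa_mem_Q hr hv).2 (τ_mem_otube.1 h')), rfl⟩
  · exact fun a h => (h (qb_mem_Q r a)).elim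
  · rintro ⟨x, hx, rfl⟩
    exact fun h => hx ((io_mem_Q hr (mem_cab_of_otube hr hx)).1 h)

theorem isOpen_Q (r : ℝ) : IsOpen (Q t r) := by
  refine IsOpen.union (isOpen_iff_mem_nhds.2 ?_) (ld_isOpenEmbedding ld_qb qb_inj).isOpen_range
  rintro _ ⟨v, hv, rfl⟩
  exact ld_image_mem (ld_qa hv.1)
    ((isOpen_ff_ne.inter (isOpen_lt continuous_snd.norm continuous_const)).mem_nhds hv)

/-! ### the circle map -/

/-- the circle map of `C0` -/
def Phi (k : KD) : C0 k.toTube → Circle := phi0 (cable k)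

theorem contMDiff_Phi (k : KD) : ContMDiff (𝓡 3) (𝓡 1) ∞ (Phi k) := contMDiff_phi0 (cable k)

theorem Phi_qb (k : KD) (a : Circle × ℂ) : Phi k (qb k.toTube a) = a.1 := phi0_it (cable k) a

theorem Phi_io (k : KD) {x : S3} (h : x ∈ (cabT k.toTube).Ext) : Phi k (io k.toTube x) = thC k x := by
  rw [io_mem h]; exact phi0_ie (cable k) _

theorem Phi_qa (k : KD) {v : Circle × ℂ} (h : ff v ≠ 0) : Phi k (qa k.toTube v) = dir (ff v) :=
  (Phi_io k (τ_mem_cab.2 h)).trans (thC_τ k v)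

theorem Phi_far (k : KD) {x : S3} (h : x ∉ otube k.toTube 3) : Phi k (io k.toTube x) = thK k x ^ 2 :=
  (Phi_io k (mem_cab_of_otube (by norm_num) h)).trans (thC_far k h)

/-! ### the flow -/

/-- a bump: `1` for `‖z‖ ≤ r`, positive for `‖z‖ < r + 1`, zero beyond -/
def bp (r : ℝ) (z : ℂ) : ℝ := Real.smoothTransition (((r + 1) ^ 2 - ‖z‖ ^ 2) / (2 * r + 1))

theorem contDiff_bp (r : ℝ) : ContDiff ℝ ∞ (bp r) :=
  Real.smoothTransition.contDiff.comp ((contDiff_const.sub (contDiff_norm_sq ℝ)).div_const _)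

theorem bp_one {r : ℝ} {z : ℂ} (h : ‖z‖ ≤ r) : bp r z = 1 := by
  have := norm_nonneg z
  refine Real.smoothTransition.one_of_one_le ((one_le_div (by linarith)).2 (by nlinarith))

theorem bp_zero {r : ℝ} (hr : 0 ≤ r) {z : ℂ} (h : r + 1 ≤ ‖z‖) : bp r z = 0 :=
  Real.smoothTransition.zero_of_nonpos (div_nonpos_of_nonpos_of_nonneg (by nlinarith) (by linarith))

theorem bp_pos {r : ℝ} (hr : 0 ≤ r) {z : ℂ} (h : ‖z‖ < r + 1) : 0 < bp r z :=
  Real.smoothTransition.pos_of_pos (div_pos (by nlinarith [norm_nonneg z]) (by linarith))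

theorem bp_nonneg (r : ℝ) (z : ℂ) : 0 ≤ bp r z := Real.smoothTransition.nonneg _

theorem bp_congr (r : ℝ) {z w : ℂ} (h : ‖z‖ = ‖w‖) : bp r z = bp r w := by rw [bp, h, bp]

/-- the flow in the tube of the companion -/
def fV (R s : ℝ) (v : Circle × ℂ) : Circle × ℂ :=
  (Circle.exp (bp 3 v.2 * s) ^ 2 * v.1, Circle.exp (bp R v.2 * s) * v.2)

@[simp] theorem norm_fV (R s : ℝ) (v : Circle × ℂ) : ‖(fV R s v).2‖ = ‖v.2‖ := by
  rw [fV, norm_mul, Circle.norm_coe, one_mul]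

theorem fV_near {R : ℝ} (hR : 3 ≤ R) (s : ℝ) {v : Circle × ℂ} (h : ‖v.2‖ ≤ 3) :
    fV R s v = act (Circle.exp s) v := by
  rw [fV, bp_one h, bp_one (h.trans hR), one_mul, act]

theorem fV_mid {R : ℝ} (s : ℝ) {v : Circle × ℂ} (h : 4 ≤ ‖v.2‖) (h' : ‖v.2‖ ≤ R) :
    fV R s v = (v.1, Circle.exp s * v.2) := by
  rw [fV, bp_zero (by norm_num) (by linarith), bp_one h']
  simp

theorem fV_far {R : ℝ} (hR : 3 ≤ R) (s : ℝ) {v : Circle × ℂ} (h : R + 1 ≤ ‖v.2‖) : fV R s v = v := by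
  rw [fV, bp_zero (by norm_num) (by linarith), bp_zero (by linarith) h]
  simp

theorem fV_zero (R : ℝ) (v : Circle × ℂ) : fV R 0 v = v := by simp [fV]

theorem fV_add (R s s' : ℝ) (v : Circle × ℂ) : fV R (s + s') v = fV R s (fV R s' v) := by
  rw [fV, fV, bp_congr 3 (norm_fV R s' v), bp_congr R (norm_fV R s' v)]
  simp only [fV, mul_add, Circle.exp_add, mul_pow, Circle.coe_mul, mul_assoc]

theorem ff_fV {R : ℝ} (hR : 3 ≤ R) (s : ℝ) (v : Circle × ℂ) :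
    ff (fV R s v) = (Circle.exp (bp R v.2 * s) ^ 2 : Circle) * ff v := by
  rcases le_total ‖v.2‖ 3 with h | h
  · rw [fV_near hR s h, ff_act, bp_one (h.trans hR), one_mul]
  · rw [ff_far (by rwa [norm_fV]), ff_far h, sq, Circle.coe_mul, mul_mul_mul_comm]
    rfl

theorem ff_fV_ne {R : ℝ} (hR : 3 ≤ R) (s : ℝ) {v : Circle × ℂ} (h : ff v ≠ 0) : ff (fV R s v) ≠ 0 := by
  rw [ff_fV hR]; exact mul_ne_zero (Circle.coe_ne_zero _) h

theorem contMDiff_fV (R : ℝ) :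
    ContMDiff (𝓘(ℝ, ℝ).prod IT) IT ∞ fun p : ℝ × Circle × ℂ => fV R p.1 p.2 := fun p => by
  have h : ∀ r, ContMDiffAt (𝓘(ℝ, ℝ).prod IT) (𝓡 1) ∞
      (fun p : ℝ × Circle × ℂ => Circle.exp (bp r p.2.2 * p.1)) p := fun r =>
    (contMDiff_circleExp _).comp p
      ((((contDiff_bp r).contMDiff _).comp p contMDiffAt_snd.snd).mul contMDiffAt_fst)
  exact (((h 3).pow 2).mul contMDiffAt_snd.fst).prodMk (cmul (ccoe (h R)) contMDiffAt_snd.snd)

theorem act_mon0 (u : Circle) {a : Circle × ℂ} (h : a.2 ≠ 0) :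
    act u (cT (mon 1 0 0 1 a)) = cT (mon 1 0 0 1 (act u a)) := by
  rw [act_cT, mon0, mon0, norm_act]
  simp only [act, dir_coe_mul _ h, Circle.coe_mul, mul_left_comm]

theorem act_ne (u : Circle) {a : Circle × ℂ} (h : a.2 ≠ 0) : (act u a).2 ≠ 0 :=
  mul_ne_zero u.coe_ne_zero h

/-- the flow on `C0` -/
def flo (t : Tube) (R s : ℝ) : C0 t → C0 t :=
  gl t (fun v => qa t (fV R s v)) (fun a => qb t (act (Circle.exp s) a)) (io t)

variable {R : ℝ}

theorem flo_match (hR : 3 ≤ R) (s : ℝ) (a : Circle × ℂ) (h : a.2 ≠ 0) :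
    qa t (fV R s (cT (mon 1 0 0 1 a))) = qb t (act (Circle.exp s) a) := by
  rw [fV_near hR s ((norm_cT_lt _).le.trans (by norm_num)), act_mon0 _ h, qa_cT (act_ne _ h)]

theorem flo_qb (s : ℝ) (a : Circle × ℂ) : flo t R s (qb t a) = qb t (act (Circle.exp s) a) := gl_qb a

theorem flo_qa (hR : 3 ≤ R) (s : ℝ) {v : Circle × ℂ} (h : ff v ≠ 0) :
    flo t R s (qa t v) = qa t (fV R s v) := gl_qa (flo_match hR s) h

theorem flo_far (hR : 3 ≤ R) (s : ℝ) {x : S3} (h : x ∉ otube t (R + 1)) : flo t R s (io t x) = io t x :=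
  gl_far (flo_match hR s) (by linarith) (fun v hv => by rw [fV_far hR s hv]; rfl) h

theorem flo_of_notMem (hR : 3 ≤ R) (s : ℝ) {p : C0 t} (h : p ∉ Q t (R + 1)) : flo t R s p = p := by
  obtain ⟨x, hx, rfl⟩ := (compl_Q (t := t) (r := R + 1) (by linarith)).subset h
  exact flo_far hR s hx

theorem flo_zero (hR : 3 ≤ R) (p : C0 t) : flo t R 0 p = p :=
  C0_ind (P := fun p => flo t R 0 p = p) (fun _ h => flo_far hR 0 (not_mem_otube _ h))
    (fun v h => by rw [flo_qa hR 0 h, fV_zero]) (fun a => by rw [flo_qb, Circle.exp_zero, act_one]) p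

theorem flo_add (hR : 3 ≤ R) (s s' : ℝ) (p : C0 t) :
    flo t R (s + s') p = flo t R s (flo t R s' p) :=
  C0_ind (P := fun p => flo t R (s + s') p = flo t R s (flo t R s' p))
    (fun _ h => by simp only [flo_far hR _ (not_mem_otube _ h)])
    (fun v h => by rw [flo_qa hR _ h, flo_qa hR _ h, flo_qa hR _ (ff_fV_ne hR _ h), fV_add])
    (fun a => by rw [flo_qb, flo_qb, flo_qb, act_mul, Circle.exp_add]) p

theorem contMDiff_flo (hR : 3 ≤ R) :
    ContMDiff (𝓘(ℝ, ℝ).prod (𝓡 3)) (𝓡 3) ∞ fun p : ℝ × C0 t => flo t R p.1 p.2 := by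
  refine contMDiff_C0 (fun s x hx => ?_) (fun s v hv => ?_) fun s a => ?_
  · refine ((ld_io (mem_cab_of_range hx)).contMDiffAt.comp (s, x)
      contMDiffAt_snd).congr_of_eventuallyEq ?_
    filter_upwards [continuousAt_snd.eventually (ev_far (R + 1) hx)] with p hp
    exact flo_far hR _ hp
  · refine ((ld_qa (ff_fV_ne hR s hv)).contMDiffAt.comp (s, v)
      (contMDiff_fV R _)).congr_of_eventuallyEq ?_
    filter_upwards [continuousAt_snd.eventually (ev_ff hv)] with p hp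
    exact flo_qa hR _ hp
  · simp only [flo_qb]
    exact (ld_qb _).contMDiffAt.comp (s, a)
      (cact ((contMDiff_circleExp _).comp (s, a) contMDiffAt_fst) contMDiffAt_snd)

theorem flo_mem_Q (hR : 3 ≤ R) {r : ℝ} (hr : 2 ≤ r) (s : ℝ) (p : C0 t) :
    flo t R s p ∈ Q t r ↔ p ∈ Q t r :=
  C0_ind (P := fun p => flo t R s p ∈ Q t r ↔ p ∈ Q t r)
    (fun _ h => by rw [flo_far hR _ (not_mem_otube _ h)])
    (fun v h => by rw [flo_qa hR _ h, qa_mem_Q hr h, qa_mem_Q hr (ff_fV_ne hR _ h), norm_fV])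
    (fun a => by simp only [flo_qb, qb_mem_Q]) p

/-- the speed of the flow -/
def sp (t : Tube) (R : ℝ) : C0 t → ℝ := gl t (fun v => bp R v.2) (fun _ => 1) fun _ => 0

theorem sp_match (hR : 3 ≤ R) (a : Circle × ℂ) (_ : a.2 ≠ 0) : bp R (cT (mon 1 0 0 1 a)).2 = 1 :=
  bp_one ((norm_cT_lt _).le.trans (by linarith))

theorem sp_qb (a : Circle × ℂ) : sp t R (qb t a) = 1 := gl_qb a

theorem sp_qa (hR : 3 ≤ R) {v : Circle × ℂ} (h : ff v ≠ 0) : sp t R (qa t v) = bp R v.2 :=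
  gl_qa (sp_match hR) h

theorem sp_far (hR : 3 ≤ R) {x : S3} (h : x ∉ otube t (R + 1)) : sp t R (io t x) = 0 :=
  gl_far (sp_match hR) (by linarith) (fun _ hv => bp_zero (by linarith) hv) h

theorem sp_nonneg (hR : 3 ≤ R) (p : C0 t) : 0 ≤ sp t R p :=
  C0_ind (P := fun p => 0 ≤ sp t R p) (fun _ h => (sp_far hR (not_mem_otube _ h)).ge)
    (fun v h => by rw [sp_qa hR h]; exact bp_nonneg _ _) (fun a => by rw [sp_qb]; exact zero_le_one) p

theorem sp_one (hR : 3 ≤ R) {p : C0 t} (h : p ∈ Q t R) : sp t R p = 1 := by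
  rcases h with ⟨v, hv, rfl⟩ | ⟨a, rfl⟩
  exacts [(sp_qa hR hv.1).trans (bp_one hv.2.le), sp_qb a]

theorem sp_pos (hR : 3 ≤ R) {p : C0 t} (h : p ∈ Q t (R + 1)) : 0 < sp t R p := by
  rcases h with ⟨v, hv, rfl⟩ | ⟨a, rfl⟩
  · rw [sp_qa hR hv.1]; exact bp_pos (by linarith) hv.2
  · rw [sp_qb]; exact one_pos

theorem contMDiff_sp (hR : 3 ≤ R) : ContMDiff (𝓡 3) 𝓘(ℝ, ℝ) ∞ (sp t R) := by
  refine C0_ind (fun x hx => ?_) (fun v hv => ?_) fun a => ?_
  · exact contMDiffAt_of_comp (ld_io (mem_cab_of_range hx)) (contMDiffAt_const.congr_of_eventuallyEq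
      ((ev_far (R + 1) hx).mono fun y hy => sp_far hR hy))
  · exact contMDiffAt_of_comp (ld_qa hv) ((((contDiff_bp R).contMDiff _).comp v
      contMDiffAt_snd).congr_of_eventuallyEq ((ev_ff hv).mono fun y hy => sp_qa hR hy))
  · exact contMDiffAt_of_comp (ld_qb a) (contMDiffAt_const.congr_of_eventuallyEq
      (Eventually.of_forall fun y => sp_qb y))

/-- the flow rotates the circle map -/
theorem Phi_flo (k : KD) (hR : 3 ≤ R) (s : ℝ) (p : C0 k.toTube) :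
    Phi k (flo k.toTube R s p) = Circle.exp (sp k.toTube R p * s) ^ 2 * Phi k p :=
  C0_ind (P := fun p => Phi k (flo k.toTube R s p) = Circle.exp (sp k.toTube R p * s) ^ 2 * Phi k p)
    (fun _ h => by simp [flo_far hR _ (not_mem_otube _ h), sp_far hR (not_mem_otube _ h)])
    (fun v h => by
      rw [flo_qa hR _ h, Phi_qa k (ff_fV_ne hR _ h), ff_fV hR, dir_coe_mul _ h, sp_qa hR h, Phi_qa k h])
    (fun a => by rw [flo_qb, Phi_qb, Phi_qb, sp_qb, one_mul, act]) p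

end Crest.Agent.X212.Cab39
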